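import Mathlib.Analysis.SpecialFunctions.Log.Basic
import Mathlib.Topology.Order.Compact

set_option linter.all false

/-! Block ABS (helper209): blow-up lemma in rate form, for (II) of TXT-WIN-4. -/

open Set Filter Topology

namespace Vale.Agent.P214.ABS

/-- If a continuous function `f > 1` drops (going to the left) at the rate `f²` from every point of
`(a, b]`, then `b < a + 1`. -/
theorem blow {f : ℝ → ℝ} {a b : ℝ} (hf : ContinuousOn f (Icc (a - 1) b))
    (h1 : ∀ s ∈ Icc (a - 1) b, 1 < f s)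
    (hstep : ∀ s, a < s → s ≤ b → ∃ x, a - 1 ≤ x ∧ x < s ∧ f x ≤ f s - (s - x) * f s ^ 2) :
    b < a + 1 := by
  by_contra hcon
  push Not at hcon
  set g : ℝ → ℝ := fun s => (f s)⁻¹ + s with hg
  have hgc : ContinuousOn g (Icc (a - 1) b) :=
    (hf.inv₀ fun s hs => (zero_lt_one.trans (h1 s hs)).ne').add continuousOn_id
  have hstep' : ∀ s, a < s → s ≤ b → ∃ x, a - 1 ≤ x ∧ x < s ∧ g s ≤ g x := by
    intro s h2 h3
    obtain ⟨x, hx1, hx2, hx3⟩ := hstep s h2 h3
    refine ⟨x, hx1, hx2, ?_⟩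
    have hfs := h1 s ⟨by linarith, h3⟩
    have hfx := h1 x ⟨hx1, by linarith⟩
    have hfs0 : 0 < f s := by linarith
    have hfx0 : 0 < f x := by linarith
    have key : (f s)⁻¹ + (s - x) ≤ (f x)⁻¹ := by
      have h4 : (f s)⁻¹ + (s - x) = (1 + (s - x) * f s) / f s := by field_simp
      rw [h4, inv_eq_one_div, div_le_div_iff₀ hfs0 hfx0, one_mul]
      have h5 : 0 ≤ 1 + (s - x) * f s := by
        have : 0 ≤ (s - x) * f s := mul_nonneg (by linarith) hfs0.le
        linarith
      calc (1 + (s - x) * f s) * f x ≤ (1 + (s - x) * f s) * (f s - (s - x) * f s ^ 2) :=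
            mul_le_mul_of_nonneg_left hx3 h5
        _ = f s * (1 - ((s - x) * f s) ^ 2) := by ring
        _ ≤ f s * 1 := by
            apply mul_le_mul_of_nonneg_left _ hfs0.le
            nlinarith [sq_nonneg ((s - x) * f s)]
        _ = f s := mul_one _
    simp only [hg]
    linarith
  -- the set of points with `g x ≥ g b`
  set K : Set ℝ := {x | x ∈ Icc (a - 1) b ∧ g b ≤ g x} with hK
  have hKc : IsCompact K := by
    have : K = Icc (a - 1) b ∩ g ⁻¹' (Ici (g b)) := by
      ext x; simp [hK]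
    rw [this]
    exact isCompact_Icc.of_isClosed_subset
      (hgc.preimage_isClosed_of_isClosed isClosed_Icc isClosed_Ici) inter_subset_left
  have hne : K.Nonempty := ⟨b, ⟨by linarith, le_rfl⟩, le_rfl⟩
  obtain ⟨m, hm, hmin⟩ := hKc.exists_isLeast hne
  have hma : m ≤ a := by
    by_contra h
    push Not at h
    obtain ⟨x, hx1, hx2, hx3⟩ := hstep' m h hm.1.2
    have hxK : x ∈ K := ⟨⟨hx1, hx2.le.trans hm.1.2⟩, hm.2.trans hx3⟩
    exact absurd (hmin hxK) (not_le.2 hx2)
  have h5 := h1 m hm.1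
  have h6 : (f m)⁻¹ < 1 := inv_lt_one_of_one_lt₀ h5
  have h7 : 0 < (f b)⁻¹ := inv_pos.2 (zero_lt_one.trans (h1 b ⟨by linarith, le_rfl⟩))
  have h8 := hm.2
  simp only [hg] at h8
  linarith

end Vale.Agent.P214.ABS
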