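import Vale.Agent.P214.ABS.Defs
import Mathlib.Analysis.SpecialFunctions.Pow.Continuity
import Mathlib.Tactic

/-!
# P214, block ABS: bounds for the deeper heights
-/

open Set Filter Topology

namespace Vale.Agent.P214.ABS

noncomputable section

namespace Chain

variable {X : Chain}

theorem Good.exists_win (hX : X.Good) {t : ℝ} (ht : 0 < t) (h0 : t ≤ X.T 0) : ∃ k, X.Win k t := by
  have h : ∃ k, X.T (k + 1) ≤ t := by
    have := (hX.T_lim.eventually (gt_mem_nhds ht)).exists_forall_of_atTop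
    obtain ⟨N, hN⟩ := this
    exact ⟨N, (hN (N + 1) (by omega)).le⟩
  classical
  refine ⟨Nat.find h, Nat.find_spec h, ?_⟩
  rcases Nat.eq_zero_or_pos (Nat.find h) with h1 | h1
  · rw [h1]; exact h0
  · obtain ⟨n, hn⟩ := Nat.exists_eq_succ_of_ne_zero h1.ne'
    have := Nat.find_min h (m := n) (by omega)
    rw [hn]
    push Not at this
    exact this.le

theorem Good.win_pos (hX : X.Good) {k : ℕ} {t : ℝ} (h : X.Win k t) : 0 < t :=
  lt_of_lt_of_le (hX.T_pos _) h.1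

theorem Good.win_top (hX : X.Good) (k : ℕ) : X.Win k (X.T k) :=
  ⟨(hX.T_anti (Nat.lt_succ_self k)).le, le_rfl⟩

theorem Good.win_bot (hX : X.Good) (k : ℕ) : X.Win k (X.T (k + 1)) :=
  ⟨le_rfl, (hX.T_anti (Nat.lt_succ_self k)).le⟩

theorem Good.h_pos (hX : X.Good) {k : ℕ} {t : ℝ} (h : X.Win k t) : 0 < X.h k t :=
  div_pos (hX.H_pos k t h) (pow_pos (hX.win_pos h) 2)

theorem Good.le_L (hX : X.Good) {k : ℕ} {t : ℝ} (h : X.Win k t) : 10 ≤ X.L k t := by
  have h1 := Real.log_le_log (hX.h_pos h) (hX.h_le k t h)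
  rw [Real.log_exp] at h1
  rw [L, Real.log_inv]
  linarith

theorem Good.L_pos (hX : X.Good) {k : ℕ} {t : ℝ} (h : X.Win k t) : 0 < X.L k t := by
  linarith [hX.le_L h]

theorem Good.collar_le (hX : X.Good) {k : ℕ} {t : ℝ} (h : X.Win k t) :
    ((X.L k t)⁻¹) ^ 6 ≤ 1 / 1000000 := by
  have h1 := hX.le_L h
  have h2 : (X.L k t)⁻¹ ≤ 1 / 10 := by
    rw [inv_le_comm₀ (hX.L_pos h) (by norm_num)]; norm_num; exact h1
  have h3 : 0 ≤ (X.L k t)⁻¹ := by have := hX.L_pos h; positivity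
  calc ((X.L k t)⁻¹) ^ 6 ≤ (1 / 10) ^ 6 := pow_le_pow_left₀ h3 h2 6
    _ = _ := by norm_num

theorem Good.exp_neg_L (hX : X.Good) {k : ℕ} {t : ℝ} (h : X.Win k t) :
    Real.exp (- X.L k t) = X.h k t := by
  rw [L, Real.log_inv, neg_neg, Real.exp_log (hX.h_pos h)]

/-- shallower windows have smaller index -/
theorem Good.idx_le (hX : X.Good) {i k : ℕ} {x t : ℝ} (hi : X.Win i x) (hk : X.Win k t)
    (hxt : x < t) : k ≤ i := by
  by_contra hcon
  push Not at hcon
  have : X.T k ≤ X.T (i + 1) := hX.T_anti.antitone (by omega)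
  have h1 := hi.1
  have h2 := hk.2
  linarith

theorem Good.top_le (hX : X.Good) {k : ℕ} {t : ℝ} (h : X.Win k t) : t ≤ X.T 0 :=
  h.2.trans (hX.T_anti.antitone (Nat.zero_le k))

theorem Bdd.mono {t t' S S' : ℝ} (h : X.Bdd t S) (ht : t' ≤ t) (hS : S ≤ S') :
    X.Bdd t' S' := by
  intro i x hx hxt
  refine (h i x hx (hxt.trans ?_)).trans hS
  have h6 : (0 : ℝ) ≤ ((X.L i x)⁻¹) ^ 6 := by positivity
  have h0 : 0 ≤ 1 + ((X.L i x)⁻¹) ^ 6 := by linarith
  exact mul_le_mul_of_nonneg_right ht h0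

theorem Bdd.self (hX : X.Good) {t S : ℝ} {k : ℕ} (h : X.Bdd t S) (hk : X.Win k t) :
    X.h k t ≤ S := by
  refine h k t hk ?_
  have h6 : (0 : ℝ) ≤ ((X.L k t)⁻¹) ^ 6 := by positivity
  nlinarith [hX.win_pos hk]

theorem Bdd.of_le (hX : X.Good) {t S x : ℝ} {i : ℕ} (h : X.Bdd t S) (hi : X.Win i x)
    (hx : x ≤ t) : X.h i x ≤ S := by
  refine h i x hi ?_
  have h6 : (0 : ℝ) ≤ ((X.L i x)⁻¹) ^ 6 := by positivity
  nlinarith [hX.win_pos hi]

theorem Bdd.near {t S y : ℝ} {k l : ℕ} (h : X.Bdd t S) (hl : X.Near k l y)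
    (ht : X.T (k + 1) ≤ t) : X.h l y ≤ S := by
  refine h l y hl.1 (hl.2.2.trans ?_)
  have h6 : (0 : ℝ) ≤ ((X.L l y)⁻¹) ^ 6 := by positivity
  exact mul_le_mul_of_nonneg_right ht (by linarith)

/-- The size of the switch at `T (k+1)`. -/
theorem Good.exists_jump (hX : X.Good) (k : ℕ) :
    ∃ g, 0 < g ∧ X.Jump k g ∧ g ≤ X.e k ∧ ∀ t S, X.T (k + 1) ≤ t → X.Bdd t S → g ≤ S := by
  rcases hX.switch k with ⟨h1, h2⟩ | ⟨l, y, h1, h2, h3, -, -⟩
  · exact ⟨_, hX.h_pos (hX.win_bot k), h1, h2, fun t S ht hS => hS.of_le hX (hX.win_bot k) ht⟩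
  · exact ⟨_, hX.h_pos h1.1, h2, h3, fun t S ht hS => hS.near h1 ht⟩

/-- the heights of the deeper switches -/
theorem Good.e_le_of_bdd (hX : X.Good) {k : ℕ} {t S : ℝ} (ht : X.T (k + 1) ≤ t) (hS : X.Bdd t S) :
    X.e (k + 1) ≤ S := hX.e_le k t S ht hS

theorem Good.e_decay (hX : X.Good) {k : ℕ} {S : ℝ} (hS0 : 0 < S) (hS : S ^ X.c ≤ 1 / 2)
    (he : X.e (k + 1) ≤ S) (n : ℕ) : X.e (k + 1 + n) ≤ S * (1 / 2) ^ n := by
  induction n with
  | zero => simpa using he
  | succ n ih =>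
    have hp := hX.e_pos (k + 1 + n)
    have h1 : X.e (k + 1 + n) ≤ S := ih.trans (by
      have : ((1 : ℝ) / 2) ^ n ≤ 1 := pow_le_one₀ (by norm_num) (by norm_num)
      nlinarith)
    calc X.e (k + 1 + (n + 1)) ≤ X.e (k + 1 + n) ^ (1 + X.c) := hX.growth _
      _ = X.e (k + 1 + n) * X.e (k + 1 + n) ^ X.c := by
        rw [Real.rpow_add hp, Real.rpow_one]
      _ ≤ X.e (k + 1 + n) * S ^ X.c :=
        mul_le_mul_of_nonneg_left (Real.rpow_le_rpow hp.le h1 hX.c_pos.le) hp.le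
      _ ≤ (S * (1 / 2) ^ n) * (1 / 2) := by
        refine mul_le_mul ih hS (by positivity) (by positivity)
      _ = S * (1 / 2) ^ (n + 1) := by ring

/-- sizes of the switches below a scale `t`, relative to a bound `S` -/
theorem Good.jump_le (hX : X.Good) {k : ℕ} {t S : ℝ} (hkt : X.T (k + 1) ≤ t) (hS0 : 0 < S)
    (hS : S ^ X.c ≤ 1 / 2) (hB : X.Bdd t S) (n : ℕ) :
    ∃ g, 0 < g ∧ X.Jump (k + n) g ∧ g ^ (1 + X.c) ≤ S ^ (1 + X.c) * 2 * (1 / 2) ^ n := by
  obtain ⟨g, hg0, hg, hge, hgS⟩ := hX.exists_jump (k + n)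
  refine ⟨g, hg0, hg, ?_⟩
  have hc := hX.c_pos
  rcases Nat.eq_zero_or_pos n with hn | hn
  · subst hn
    have h1 : g ≤ S := hgS t S hkt hB
    have h2 := Real.rpow_le_rpow hg0.le h1 (by linarith : 0 ≤ 1 + X.c)
    have h3 : 0 < S ^ (1 + X.c) := by positivity
    simp only [pow_zero]
    linarith
  · obtain ⟨n, rfl⟩ := Nat.exists_eq_succ_of_ne_zero hn.ne'
    have h1 : X.e (k + 1 + n) ≤ S * (1 / 2) ^ n := hX.e_decay hS0 hS (hX.e_le_of_bdd hkt hB) n
    have h2 : g ≤ S * (1 / 2) ^ n := by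
      refine hge.trans ?_
      rw [show k + (n + 1) = k + 1 + n by ring]
      exact h1
    have hpn : ((1 : ℝ) / 2) ^ n ≤ 1 := pow_le_one₀ (by norm_num) (by norm_num)
    have hpn0 : (0 : ℝ) < (1 / 2) ^ n := by positivity
    calc g ^ (1 + X.c) ≤ (S * (1 / 2) ^ n) ^ (1 + X.c) :=
          Real.rpow_le_rpow hg0.le h2 (by linarith)
      _ = S ^ (1 + X.c) * ((1 / 2) ^ n) ^ (1 + X.c) := Real.mul_rpow hS0.le hpn0.le
      _ ≤ S ^ (1 + X.c) * ((1 / 2) ^ n) := by
        refine mul_le_mul_of_nonneg_left ?_ (by positivity)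
        calc (((1 : ℝ) / 2) ^ n) ^ (1 + X.c) ≤ (((1 : ℝ) / 2) ^ n) ^ (1 : ℝ) :=
              Real.rpow_le_rpow_of_exponent_ge hpn0 hpn (by linarith)
          _ = _ := Real.rpow_one _
      _ = S ^ (1 + X.c) * 2 * (1 / 2) ^ (n + 1) := by ring

/-- crude monotonicity through the switches -/
theorem Good.crude (hX : X.Good) {k : ℕ} {t S : ℝ} (hk : X.Win k t) (hS0 : 0 < S)
    (hS : S ^ X.c ≤ 1 / 2) (hB : X.Bdd t S) (n : ℕ) :
    ∀ x, X.Win (k + n) x → x ≤ t →
      x ^ X.m * X.H (k + n) x ≤ t ^ X.m * X.H k t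
        + t ^ (X.m + 2) * (S ^ (1 + X.c) * (4 - 4 * (1 / 2) ^ n)) := by
  induction n with
  | zero =>
    intro x hx hxt
    have := hX.mono k x t hx hk hxt
    simpa using this
  | succ n ih =>
    intro x hx hxt
    have ht0 := hX.win_pos hk
    obtain ⟨g, hg0, hg, hgS⟩ := hX.jump_le hk.1 hS0 hS hB n
    set T := X.T (k + n + 1) with hT
    have hT0 : 0 < T := hX.T_pos _
    have hTt : T ≤ t := (hX.T_anti.antitone (by omega : k + 1 ≤ k + n + 1)).trans hk.1
    have h1 := ih T (hX.win_bot (k + n)) hTt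
    have hxT : x ≤ T := hx.2
    have h2 : x ^ X.m * X.H (k + n + 1) x ≤ T ^ X.m * X.H (k + n + 1) T :=
      hX.mono (k + n + 1) x T hx (hX.win_top (k + n + 1)) hxT
    have h3 : X.H (k + n + 1) T ≤ X.H (k + n) T + T ^ 2 * g ^ (1 + X.c) := by
      have := (abs_le.1 hg.1).2
      linarith
    have h4 : T ^ X.m * X.H (k + n + 1) T
        ≤ T ^ X.m * X.H (k + n) T + T ^ (X.m + 2) * g ^ (1 + X.c) := by
      calc T ^ X.m * X.H (k + n + 1) T ≤ T ^ X.m * (X.H (k + n) T + T ^ 2 * g ^ (1 + X.c)) :=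
            mul_le_mul_of_nonneg_left h3 (by positivity)
        _ = _ := by ring
    have h5 : T ^ (X.m + 2) * g ^ (1 + X.c)
        ≤ t ^ (X.m + 2) * (S ^ (1 + X.c) * 2 * (1 / 2) ^ n) := by
      refine mul_le_mul (pow_le_pow_left₀ hT0.le hTt _) hgS (by positivity) (by positivity)
    have h6 : t ^ X.m * X.H k t + t ^ (X.m + 2) * (S ^ (1 + X.c) * (4 - 4 * (1 / 2) ^ n))
        + t ^ (X.m + 2) * (S ^ (1 + X.c) * 2 * (1 / 2) ^ n)
        = t ^ X.m * X.H k t + t ^ (X.m + 2) * (S ^ (1 + X.c) * (4 - 4 * (1 / 2) ^ (n + 1))) := by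
      ring
    show x ^ X.m * X.H (k + n + 1) x ≤ _
    rw [← h6]
    linarith

/-- **near1**: a bound in the collar above `t` gives a bound for all deeper heights. -/
theorem Good.bdd_of_above (hX : X.Good) : ∃ C : ℝ, 1 ≤ C ∧ ∃ t₀ > 0, ∀ k t S, X.Win k t → t ≤ t₀ →
    0 < S → S ≤ t₀ →
    (∀ i x, X.Win i x → t ≤ x → x ≤ t * (1 + ((X.L i x)⁻¹) ^ 6) → X.h i x ≤ S) →
    X.Bdd t (C * S) := by
  set D : ℝ := (3 / 2) ^ (X.m + 2) with hD
  have hD1 : 1 ≤ D := one_le_pow₀ (by norm_num)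
  have hc := hX.c_pos
  obtain ⟨t₁, ht₁, hdec⟩ := hX.decay (1 / 2) (by norm_num)
  -- smallness of `S`
  obtain ⟨σ, hσ0, hσ⟩ : ∃ σ > 0, ∀ S : ℝ, 0 < S → S ≤ σ → S ^ X.c ≤ 1 / (16 * D) := by
    refine ⟨(1 / (16 * D)) ^ (X.c)⁻¹, by positivity, fun S h0 h1 => ?_⟩
    calc S ^ X.c ≤ ((1 / (16 * D)) ^ (X.c)⁻¹) ^ X.c := Real.rpow_le_rpow h0.le h1 hc.le
      _ = 1 / (16 * D) := by
        rw [← Real.rpow_mul (by positivity), inv_mul_cancel₀ hc.ne', Real.rpow_one]
  obtain ⟨t₂, ht₂, hlim⟩ := hX.lim (min t₁ σ) (lt_min ht₁ hσ0)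
  refine ⟨2 * D, by linarith, min (min t₁ t₂) σ, by positivity, ?_⟩
  intro k t S hk ht hS0 hS habove
  have ht0 := hX.win_pos hk
  have htt₁ : t ≤ t₁ := ht.trans ((min_le_left _ _).trans (min_le_left _ _))
  have htt₂ : t ≤ t₂ := ht.trans ((min_le_left _ _).trans (min_le_right _ _))
  have hSσ : S ≤ σ := hS.trans (min_le_right _ _)
  have hSt₁ : S ≤ t₁ := hS.trans ((min_le_left _ _).trans (min_le_left _ _))
  -- the supremum of all deeper heights
  set Z : Set ℝ := {z | ∃ i x, X.Win i x ∧ x ≤ t ∧ z = X.h i x} with hZ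
  have hZb : BddAbove Z := by
    refine ⟨min t₁ σ, ?_⟩
    rintro z ⟨i, x, hx, hxt, rfl⟩
    exact (hlim i x hx (hxt.trans htt₂)).1
  have hZne : Z.Nonempty := ⟨X.h k t, k, t, hk, le_rfl, rfl⟩
  set U := sSup Z with hU
  have hUle : U ≤ min t₁ σ := csSup_le hZne (by
    rintro z ⟨i, x, hx, hxt, rfl⟩
    exact (hlim i x hx (hxt.trans htt₂)).1)
  have hmemU : ∀ i x, X.Win i x → x ≤ t → X.h i x ≤ U := fun i x hx hxt =>
    le_csSup hZb ⟨i, x, hx, hxt, rfl⟩
  have hkS : X.h k t ≤ S := by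
    refine habove k t hk le_rfl ?_
    have h6 : (0 : ℝ) ≤ ((X.L k t)⁻¹) ^ 6 := by positivity
    nlinarith
  -- `V = max S U` bounds everything
  set V := max S U with hV
  have hV0 : 0 < V := lt_of_lt_of_le hS0 (le_max_left _ _)
  have hVt₁ : V ≤ t₁ := max_le hSt₁ (hUle.trans (min_le_left _ _))
  have hVσ : V ≤ σ := max_le hSσ (hUle.trans (min_le_right _ _))
  have hBV : X.Bdd t V := by
    intro i x hx hxt
    rcases le_total x t with h | h
    · exact (hmemU i x hx h).trans (le_max_right _ _)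
    · exact (habove i x hx h hxt).trans (le_max_left _ _)
  have hVc : V ^ X.c ≤ 1 / (16 * D) := hσ V hV0 hVσ
  have hVc2 : V ^ X.c ≤ 1 / 2 := hVc.trans (by
    rw [div_le_div_iff₀ (by positivity) (by norm_num)]; linarith)
  have hVV : V ^ (1 + X.c) ≤ V / (16 * D) := by
    rw [Real.rpow_add hV0, Real.rpow_one]
    calc V * V ^ X.c ≤ V * (1 / (16 * D)) := mul_le_mul_of_nonneg_left hVc hV0.le
      _ = _ := by ring
  -- bound for all deeper heights
  have hdeep : ∀ i x, X.Win i x → x ≤ t → X.h i x ≤ max S (D * S + V / 2) := by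
    intro i x hx hxt
    have hx0 := hX.win_pos hx
    rcases le_total x (2 / 3 * t) with h | h
    · have h1 := hdec k t V hk htt₁ hV0 hVt₁ hBV i x hx h
      refine h1.trans (le_max_of_le_right ?_)
      nlinarith
    · rcases hxt.eq_or_lt with heq | hlt
      · refine le_max_of_le_left (habove i x hx heq.symm.le ?_)
        have h6 : (0 : ℝ) ≤ ((X.L i x)⁻¹) ^ 6 := by positivity
        rw [heq] at h6 ⊢
        nlinarith
      · have hki := hX.idx_le hx hk hlt
        obtain ⟨n, rfl⟩ := Nat.exists_eq_add_of_le hki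
        have h1 := hX.crude hk hV0 hVc2 hBV n x hx hxt
        refine le_max_of_le_right ?_
        have hn0 : (0 : ℝ) ≤ (1 / 2) ^ n := by positivity
        have hVp : 0 < V ^ (1 + X.c) := by positivity
        have h2 : x ^ X.m * X.H (k + n) x ≤ t ^ (X.m + 2) * (S + V / (4 * D)) := by
          calc x ^ X.m * X.H (k + n) x ≤ t ^ X.m * X.H k t
                + t ^ (X.m + 2) * (V ^ (1 + X.c) * (4 - 4 * (1 / 2) ^ n)) := h1
            _ ≤ t ^ X.m * (S * t ^ 2) + t ^ (X.m + 2) * (V / (4 * D)) := by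
              refine add_le_add ?_ ?_
              · refine mul_le_mul_of_nonneg_left ?_ (by positivity)
                have := hkS
                rw [Chain.h, div_le_iff₀ (by positivity)] at this
                exact this
              · refine mul_le_mul_of_nonneg_left ?_ (by positivity)
                calc V ^ (1 + X.c) * (4 - 4 * (1 / 2) ^ n) ≤ V ^ (1 + X.c) * 4 := by
                      refine mul_le_mul_of_nonneg_left (by linarith) hVp.le
                  _ ≤ V / (16 * D) * 4 := by linarith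
                  _ = V / (4 * D) := by field_simp; ring
            _ = t ^ (X.m + 2) * (S + V / (4 * D)) := by ring
        have h3 : t ^ (X.m + 2) ≤ D * x ^ (X.m + 2) := by
          rw [hD, ← mul_pow]
          exact pow_le_pow_left₀ ht0.le (by linarith) _
        have h4 : X.h (k + n) x * x ^ (X.m + 2) = x ^ X.m * X.H (k + n) x := by
          rw [Chain.h]; field_simp; ring
        have h5 : X.h (k + n) x * x ^ (X.m + 2) ≤ (D * (S + V / (4 * D))) * x ^ (X.m + 2) := by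
          rw [h4]
          refine h2.trans ?_
          have : 0 ≤ S + V / (4 * D) := by positivity
          nlinarith
        have h6 := le_of_mul_le_mul_right h5 (by positivity)
        refine h6.trans ?_
        have : D * (S + V / (4 * D)) = D * S + V / 4 := by field_simp
        rw [this]; linarith
  have hU2 : U ≤ 2 * D * S := by
    have h1 : U ≤ max S (D * S + V / 2) := csSup_le hZne (by
      rintro z ⟨i, x, hx, hxt, rfl⟩
      exact hdeep i x hx hxt)
    rcases le_total U S with h2 | h2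
    · nlinarith
    · rw [max_eq_right h2] at hV
      rw [hV] at h1
      rcases le_total S (D * S + U / 2) with h3 | h3
      · rw [max_eq_right h3] at h1
        linarith
      · rw [max_eq_left h3] at h1
        nlinarith
  intro i x hx hxt
  rcases le_total x t with h | h
  · exact (hmemU i x hx h).trans hU2
  · have := habove i x hx h hxt
    nlinarith

/-- **near2**: decay of the bounds. -/
theorem Good.bdd_deep (hX : X.Good) : ∃ t₀ > 0, ∀ t S, t ≤ X.T 0 → t ≤ t₀ → 0 < S → S ≤ t₀ →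
    X.Bdd t S → ∀ x, 0 < x → x ≤ t → X.Bdd x (4 * (x / t) ^ 2 * S) := by
  obtain ⟨t₁, ht₁, hdec⟩ := hX.decay (1 / 4) (by norm_num)
  refine ⟨t₁, ht₁, ?_⟩
  intro t S hT htt₁ hS0 hSt₁ hB x hx0 hxt
  have ht0 : 0 < t := hx0.trans_le hxt
  -- one step
  have hstep : ∀ (t S : ℝ), 0 < t → t ≤ X.T 0 → t ≤ t₁ → 0 < S → S ≤ t₁ →
      X.Bdd t S → X.Bdd (t / 2) (S / 4) := by
    intro t S ht0 hT h1 h3 h4 hB i x hx hxt
    obtain ⟨k, hk⟩ := hX.exists_win ht0 hT
    have h5 : x ≤ 2 / 3 * t := by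
      have h8 := hX.collar_le hx
      nlinarith
    have := hdec k t S hk h1 h3 h4 hB i x hx h5
    linarith
  have hiter : ∀ n : ℕ, X.Bdd (t / 2 ^ n) (S / 4 ^ n) := by
    intro n
    induction n with
    | zero => simpa using hB
    | succ n ih =>
      have h2 : (1 : ℝ) ≤ 2 ^ n := one_le_pow₀ (by norm_num)
      have h4 : (1 : ℝ) ≤ 4 ^ n := one_le_pow₀ (by norm_num)
      have h5 : t / 2 ^ n ≤ t := div_le_self ht0.le h2
      have h6 : S / 4 ^ n ≤ S := div_le_self hS0.le h4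
      have := hstep (t / 2 ^ n) (S / 4 ^ n) (by positivity) (h5.trans hT) (h5.trans htt₁)
        (by positivity) (h6.trans hSt₁) ih
      rw [pow_succ, pow_succ, ← div_div, ← div_div]
      exact this
  -- choose `n` with `t / 2 ^ (n+1) < x ≤ t / 2 ^ n`
  obtain ⟨n, hn1, hn2⟩ := exists_nat_pow_near (x := t / x) (y := 2) ((one_le_div hx0).2 hxt)
    (by norm_num)
  have h1 : x ≤ t / 2 ^ n := by
    rw [le_div_iff₀ (by positivity)]
    rw [le_div_iff₀ hx0] at hn1
    linarith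
  refine (hiter n).mono h1 ?_
  have h2 : t / x < 2 ^ (n + 1) := hn2
  have h3 : 1 / 2 ^ (n + 1) < x / t := by
    rw [div_lt_div_iff₀ (by positivity) ht0]
    rw [div_lt_iff₀ hx0] at h2
    linarith
  have h4 : (1 / 2 ^ (n + 1)) ^ 2 ≤ (x / t) ^ 2 := pow_le_pow_left₀ (by positivity) h3.le 2
  have h5 : S / 4 ^ n = 4 * (1 / 2 ^ (n + 1)) ^ 2 * S := by
    have : (4 : ℝ) ^ n = (2 ^ n) ^ 2 := by rw [← pow_mul, mul_comm, pow_mul]; norm_num
    rw [this]; field_simp; ring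
  rw [h5]
  have : 0 ≤ S := hS0.le
  nlinarith

end Chain

end

end Vale.Agent.P214.ABS
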