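import Vale.Agent.P214.ABS.Low
import Vale.Agent.P214.ABS.Near

/-!
# P214, block ABS: the lower bound `H ≤ a + small` (TXT-WIN-4 (I)), final form
-/

open Set Filter Topology

namespace Vale.Agent.P214.ABS

noncomputable section

namespace Chain

/-- **(I)** `a ≥ H - (56 κ t + (log 1/S)^{-2}) S t²` as soon as all heights at scales `≤ t`
(with the collar) are `≤ S`. -/
theorem Good.low {X : Chain} (hX : X.Good) : ∃ t₀ > 0, ∀ k t S, X.Win k t → t ≤ t₀ →
    0 < S → S ≤ t₀ → X.Bdd t S →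
    X.H k t - (56 * X.κ * t + ((Real.log S⁻¹)⁻¹) ^ 2) * S * t ^ 2 ≤ X.a k t := by
  obtain ⟨t₁, ht₁, hdeep⟩ := hX.bdd_deep
  have key := Chain.low_of_near X hX (C₀ := 4) (tn := t₁) (by norm_num) ht₁ ?_
  · obtain ⟨t₀, ht₀, h⟩ := key
    refine ⟨t₀, ht₀, fun k t S hk ht hS hS' hB => ?_⟩
    have := h k t S hk ht hS hS' hB
    norm_num at this ⊢
    exact this
  · intro k t S hk ht hS hS' hB x hx0 hxt
    have ht0 : 0 < t := hX.win_pos hk
    refine (hdeep t S (hX.top_le hk) ht hS hS' hB x hx0 hxt).mono le_rfl ?_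
    have h1 : x / t ≤ 1 := (div_le_one ht0).2 hxt
    have h0 : 0 < x / t := by positivity
    have h2 : (x / t) ^ 2 ≤ x / t := by nlinarith
    have : 4 * (x / t) ^ 2 ≤ 4 * (x / t) := by linarith
    exact mul_le_mul_of_nonneg_right this hS.le

theorem _root_.Vale.Agent.P214.ABS.Ode.mono {κ δ δ' t H j a b H' a' : ℝ}
    (h : Ode κ δ t H j a b H' a') (hδ : δ ≤ δ') : Ode κ δ' t H j a b H' a' where
  pos := h.pos
  bnn := h.bnn
  cs := h.cs
  dH := h.dH.trans (by linarith)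
  da := by have := h.da; linarith
  gap := h.gap.trans (by linarith)

/-- the differential inequalities with the error `(log 1/S)^{-2} S t²` -/
theorem Good.ode_two {X : Chain} (hX : X.Good) : ∃ t₀ > 0, ∀ k t S, X.Win k t → t ≤ t₀ →
    0 < S → S ≤ t₀ → X.Bdd t S →
    Ode X.κ (((Real.log S⁻¹)⁻¹) ^ 2 * S * t ^ 2) t (X.H k t) (X.j k t) (X.a k t) (X.b k t)
      (X.H' k t) (X.a' k t) := by
  obtain ⟨t₀, ht₀, h⟩ := hX.ode
  refine ⟨min t₀ (Real.exp (-1)), by positivity, fun k t S hk ht hS hS' hB => ?_⟩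
  refine (h k t S hk (ht.trans (min_le_left _ _)) hS (hS'.trans (min_le_left _ _)) hB).mono ?_
  have h1 : 1 ≤ Real.log S⁻¹ := by
    rw [Real.log_inv]
    have := Real.log_le_log hS (hS'.trans (min_le_right _ _))
    rw [Real.log_exp] at this
    linarith
  have h2 : (Real.log S⁻¹)⁻¹ ≤ 1 := inv_le_one_of_one_le₀ h1
  have h3 : 0 ≤ (Real.log S⁻¹)⁻¹ := by positivity
  have h4 : ((Real.log S⁻¹)⁻¹) ^ 3 ≤ ((Real.log S⁻¹)⁻¹) ^ 2 :=
    pow_le_pow_of_le_one h3 h2 (by norm_num)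
  have h5 : 0 ≤ S * t ^ 2 := by positivity
  have := mul_le_mul_of_nonneg_right h4 h5
  nlinarith

end Chain

end

end Vale.Agent.P214.ABS
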