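import Vale.Agent.P214.ABS.Flow
import Vale.Agent.P214.ABS.LowN

/-!
# P214, block ABS: from the chain (scales) to the flow (depth)
-/

open Set Filter Topology

namespace Vale.Agent.P214.ABS

noncomputable section

/-! ### the pointwise algebra -/

theorem pt_key {k1 ρ N R B l' q' : ℝ} (hk1 : 0 ≤ k1) (hρ : 0 ≤ ρ)
    (h1 : k1 + ρ ≤ 1 / 100) (hN : 98 / 100 ≤ N) (hR : 99 / 100 ≤ R) (hB : N ^ 2 ≤ B)
    (hl2 : l' - 2 * N ≤ k1 + ρ)
    (hq : 2 * (R - N) + 2 * B - k1 * (1 + N + √B + max (N - R) 0) - ρ ≤ q')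
    (hRN : R ≤ N + 1 / 100) :
    2 * ((N - R) * (N - 1)) - (4 * k1 + 2 * ρ) * (N + 1) ≤ q' - R * l' := by
  have hsq : N ≤ √B := Real.le_sqrt_of_sq_le hB
  have hsq2 : √B ^ 2 = B := Real.sq_sqrt (le_trans (sq_nonneg N) hB)
  have h2B : 2 * N ^ 2 - k1 * N ≤ 2 * B - k1 * √B := by
    have : 0 ≤ (√B - N) * (2 * (√B + N) - k1) :=
      mul_nonneg (by linarith) (by linarith)
    linarith
  have hRl : R * (l' - 2 * N) ≤ R * (k1 + ρ) := mul_le_mul_of_nonneg_left hl2 (by linarith)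
  have hmax : max (N - R) 0 ≤ N := max_le (by linarith) (by linarith)
  have e1 : k1 * (1 + 2 * N + max (N - R) 0 + R) ≤ k1 * (4 * (N + 1)) :=
    mul_le_mul_of_nonneg_left (by linarith) hk1
  have e2 : ρ * (1 + R) ≤ ρ * (2 * (N + 1)) := mul_le_mul_of_nonneg_left (by linarith) hρ
  linarith

theorem pt_big {k1 ρ N R Q α β : ℝ} (hρ : 0 ≤ ρ)
    (h1 : k1 + ρ ≤ 1 / 100) (hR : 99 / 100 ≤ R)
    (hα1 : -(1 / 100) ≤ α - 1) (hβ1 : -(1 / 100) ≤ β)
    (hQ : 2 * ((N - R) * (N - 1)) - (4 * k1 + 2 * ρ) * (N + 1) ≤ Q)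
    (hbig : 2 * (α * R + β) + 5 ≤ N) : -(α * Q) ≤ -(3 / 16) * N ^ 2 := by
  have hαR : 99 / 100 * R ≤ α * R := mul_le_mul_of_nonneg_right (by linarith) (by linarith)
  have hR2 : 99 / 100 * R ≤ (N - 5) / 2 + 1 / 100 := by linarith
  have hN6 : 6 ≤ N := by linarith
  have e1 : 49 / 100 * N ≤ N - R := by linarith
  have e2 : 5 / 6 * N ≤ N - 1 := by linarith
  have e3 : (49 / 100 * N) * (5 / 6 * N) ≤ (N - R) * (N - 1) :=
    mul_le_mul e1 e2 (by linarith) (by linarith)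
  have e4 : (4 * k1 + 2 * ρ) * (N + 1) ≤ 1 / 25 * (N + 1) :=
    mul_le_mul_of_nonneg_right (by linarith) (by linarith)
  have e5' : 6 * N ≤ N * N := mul_le_mul_of_nonneg_right hN6 (by linarith)
  have e5 : 1 / 25 * (N + 1) ≤ 1 / 100 * N ^ 2 := by linarith [sq N]
  have e6 : 4 / 5 * N ^ 2 ≤ Q := by
    have h0 : (0 : ℝ) ≤ N ^ 2 := sq_nonneg N
    have h3 : (49 / 100 * N) * (5 / 6 * N) = 49 / 120 * N ^ 2 := by ring
    linarith
  have h0 : (0 : ℝ) ≤ N ^ 2 := sq_nonneg N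
  have e7 : 99 / 100 * (4 / 5 * N ^ 2) ≤ α * Q :=
    mul_le_mul (by linarith) e6 (by positivity) (by linarith)
  linarith

theorem pt_sml {k1 ρ r N R Q α β ε : ℝ} (hk1 : 0 ≤ k1) (hρ : 0 ≤ ρ) (hr : 0 ≤ r)
    (hN : 98 / 100 ≤ N) (hR : 99 / 100 ≤ R) (hg : R - N ≤ k1 + ρ) (hlow : 1 - r ≤ R)
    (hα1 : -(1 / 100) ≤ α - 1) (hα2 : α - 1 ≤ 1 / 100)
    (hε : 24 * k1 + 16 * ρ + 8 * r ≤ ε)
    (hQ : 2 * ((N - R) * (N - 1)) - (4 * k1 + 2 * ρ) * (N + 1) ≤ Q)
    (hM : 0 ≤ α * R + β)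
    (hsml : N ≤ 2 * (α * R + β) + 5) : -(α * Q) ≤ ε * (α * R + β + 3) := by
  set M := α * R + β with hMd
  have e1 : -(2 * ((N - R) * (N - 1))) ≤ 2 * ((k1 + ρ + r) * (N + 1)) := by
    have hx : -(k1 + ρ) ≤ N - R := by linarith
    have hy : -(k1 + ρ + r) ≤ N - 1 := by linarith
    rcases le_total 0 (N - R) with ha | ha
    · have : -(N - 1) * (N - R) ≤ (k1 + ρ + r) * (N - R) :=
        mul_le_mul_of_nonneg_right (by linarith) ha
      have h3 : (k1 + ρ + r) * (N - R) ≤ (k1 + ρ + r) * (N + 1) :=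
        mul_le_mul_of_nonneg_left (by linarith) (by linarith)
      linarith
    · rcases le_total 0 (N - 1) with hb | hb
      · have : -(N - R) * (N - 1) ≤ (k1 + ρ + r) * (N - 1) :=
          mul_le_mul_of_nonneg_right (by linarith) hb
        have h3 : (k1 + ρ + r) * (N - 1) ≤ (k1 + ρ + r) * (N + 1) :=
          mul_le_mul_of_nonneg_left (by linarith) (by linarith)
        linarith
      · have : 0 ≤ (N - R) * (N - 1) := mul_nonneg_of_nonpos_of_nonpos ha hb
        have h3 : 0 ≤ (k1 + ρ + r) * (N + 1) := mul_nonneg (by linarith) (by linarith)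
        linarith
  have e2 : -Q ≤ (6 * k1 + 4 * ρ + 2 * r) * (N + 1) := by linarith
  have e3 : (6 * k1 + 4 * ρ + 2 * r) * (N + 1) ≤ (6 * k1 + 4 * ρ + 2 * r) * (2 * (M + 3)) :=
    mul_le_mul_of_nonneg_left (by linarith) (by linarith)
  have e4 : α * -Q ≤ α * ((6 * k1 + 4 * ρ + 2 * r) * (2 * (M + 3))) :=
    mul_le_mul_of_nonneg_left (e2.trans e3) (by linarith)
  have e5 : α * ((6 * k1 + 4 * ρ + 2 * r) * (2 * (M + 3)))
      ≤ 2 * ((6 * k1 + 4 * ρ + 2 * r) * (2 * (M + 3))) := by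
    refine mul_le_mul_of_nonneg_right (by linarith) ?_
    exact mul_nonneg (by linarith) (by linarith)
  have e6 : (24 * k1 + 16 * ρ + 8 * r) * (M + 3) ≤ ε * (M + 3) :=
    mul_le_mul_of_nonneg_right hε (by linarith)
  linarith

theorem pt_alg {k1 ρ r N R B l' q' α β ε : ℝ} (hk1 : 0 ≤ k1) (hρ : 0 ≤ ρ) (hr : 0 ≤ r)
    (h1 : k1 + ρ ≤ 1 / 100) (h2 : r ≤ 1 / 100) (hB : N ^ 2 ≤ B) (hl : |l' - 2 * N| ≤ k1 + ρ)
    (hq : 2 * (R - N) + 2 * B - k1 * (1 + |N| + √B + max (N - R) 0) - ρ ≤ q')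
    (hg : R - N ≤ k1 + ρ) (hlow : 1 - r ≤ R) (hα : |α - 1| ≤ 1 / 100) (hβ : |β| ≤ 1 / 100)
    (hε : 24 * k1 + 16 * ρ + 8 * r ≤ ε) :
    Pt ε (l' - 2) (-(α * (q' - R * l'))) (α * R + β) N := by
  obtain ⟨hα1, hα2⟩ := abs_le.1 hα
  obtain ⟨hβ1, hβ2⟩ := abs_le.1 hβ
  obtain ⟨hl1, hl2⟩ := abs_le.1 hl
  have hR : 99 / 100 ≤ R := by linarith
  have hN : 98 / 100 ≤ N := by linarith
  rw [abs_of_pos (by linarith : 0 < N)] at hq
  have hRN : R ≤ N + 1 / 100 := by linarith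
  have key := pt_key hk1 hρ h1 hN hR hB hl2 hq hRN
  have hM1 : 99 / 100 * R ≤ α * R := mul_le_mul_of_nonneg_right (by linarith) (by linarith)
  have hM2 : α * R ≤ 101 / 100 * R := mul_le_mul_of_nonneg_right (by linarith) (by linarith)
  exact ⟨by linarith, by linarith, by linarith, by linarith,
    fun hbig => pt_big hρ h1 hR hα1 hβ1 key hbig,
    fun hsml => pt_sml hk1 hρ hr hN hR hg hlow hα1 hα2 hε key (by linarith) hsml⟩

/-! ### the adjustments -/

namespace Chain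

variable {X : Chain}

/-- the switch `k` is regular -/
def Reg (X : Chain) (k : ℕ) : Prop :=
  X.Jump k (X.h k (X.T (k + 1))) ∧ X.h k (X.T (k + 1)) ≤ X.e k

/-- relative jump of the height -/
def yJ (X : Chain) (k : ℕ) : ℝ :=
  (X.H (k + 1) (X.T (k + 1)) - X.H k (X.T (k + 1))) / X.H k (X.T (k + 1))

/-- relative jump of the area excess -/
def xJ (X : Chain) (k : ℕ) : ℝ :=
  (X.a (k + 1) (X.T (k + 1)) - X.a k (X.T (k + 1))) / X.H k (X.T (k + 1))

open Classical in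
/-- the adjustments, starting at the window `k₀` -/
def adj (X : Chain) (k₀ : ℕ) : ℕ → ℝ × ℝ
  | 0 => (1, 0)
  | n + 1 => if X.Reg (k₀ + n) then
      ((adj X k₀ n).1 * (1 + X.yJ (k₀ + n)), (adj X k₀ n).2 - (adj X k₀ n).1 * X.xJ (k₀ + n))
      else adj X k₀ n

theorem Good.e_lim (hX : X.Good) {η : ℝ} (hη : 0 < η) : ∃ k₀, X.e k₀ ≤ η := by
  obtain ⟨t₀, ht₀, hlim⟩ := hX.lim η hη
  obtain ⟨k, hk⟩ : ∃ k, X.T (k + 1) ≤ t₀ / 2 := by
    have := (hX.T_lim.eventually (gt_mem_nhds (half_pos ht₀))).exists_forall_of_atTop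
    obtain ⟨N, hN⟩ := this
    exact ⟨N, (hN (N + 1) (by omega)).le⟩
  refine ⟨k + 1, hX.e_le_of_bdd (le_refl (X.T (k + 1))) fun i x hi hx => (hlim i x hi ?_).1⟩
  have h1 := hX.collar_le hi
  have h3 := hX.T_pos (k + 1)
  have h4 : X.T (k + 1) * (1 + ((X.L i x)⁻¹) ^ 6) ≤ X.T (k + 1) * 2 :=
    mul_le_mul_of_nonneg_left (by linarith) h3.le
  linarith

theorem Good.e_pow (hX : X.Good) {z : ℝ} (hz0 : 0 < z) (hz : z ^ X.c ≤ 1 / 2) {k₀ : ℕ}
    (he : X.e k₀ ^ X.c ≤ z) (n : ℕ) : X.e (k₀ + n) ^ X.c ≤ z * (1 / 2) ^ n := by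
  have hc := hX.c_pos
  induction n with
  | zero => simpa using he
  | succ n ih =>
    have hp := hX.e_pos (k₀ + n)
    have hu : 0 < X.e (k₀ + n) ^ X.c := Real.rpow_pos_of_pos hp _
    have hle : X.e (k₀ + n) ^ X.c ≤ z := ih.trans (by
      have : ((1 : ℝ) / 2) ^ n ≤ 1 := pow_le_one₀ (by norm_num) (by norm_num)
      nlinarith)
    have h1 : (X.e (k₀ + n) ^ X.c) ^ X.c ≤ 1 / 2 :=
      (Real.rpow_le_rpow hu.le hle hc.le).trans hz
    calc X.e (k₀ + (n + 1)) ^ X.c ≤ (X.e (k₀ + n) ^ (1 + X.c)) ^ X.c :=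
          Real.rpow_le_rpow (hX.e_pos _).le (hX.growth _) hc.le
      _ = X.e (k₀ + n) ^ X.c * (X.e (k₀ + n) ^ X.c) ^ X.c := by
        rw [← Real.rpow_mul hp.le, ← Real.rpow_mul hp.le, ← Real.rpow_add hp]
        ring_nf
      _ ≤ (z * (1 / 2) ^ n) * (1 / 2) := by
        refine mul_le_mul ih h1 (by positivity) (by positivity)
      _ = z * (1 / 2) ^ (n + 1) := by ring

theorem Good.reg_bounds (hX : X.Good) {k : ℕ} (hr : X.Reg k) :
    |X.yJ k| ≤ X.e k ^ X.c ∧ |X.xJ k| ≤ X.e k ^ X.c := by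
  have hw := hX.win_bot k
  have hT := hX.T_pos (k + 1)
  have hH := hX.H_pos k _ hw
  have hh := hX.h_pos hw
  have hc := hX.c_pos
  have key : X.T (k + 1) ^ 2 * X.h k (X.T (k + 1)) ^ (1 + X.c)
      ≤ X.e k ^ X.c * X.H k (X.T (k + 1)) := by
    have h1 : X.H k (X.T (k + 1)) = X.T (k + 1) ^ 2 * X.h k (X.T (k + 1)) := by
      rw [Chain.h]; field_simp
    have h2 : X.h k (X.T (k + 1)) ^ X.c ≤ X.e k ^ X.c := Real.rpow_le_rpow hh.le hr.2 hc.le
    rw [Real.rpow_add hh, Real.rpow_one, h1]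
    have h3 : 0 ≤ X.T (k + 1) ^ 2 * X.h k (X.T (k + 1)) := by positivity
    nlinarith [mul_le_mul_of_nonneg_left h2 h3]
  constructor
  · rw [yJ, abs_div, abs_of_pos hH, div_le_iff₀ hH]
    exact hr.1.1.trans key
  · rw [xJ, abs_div, abs_of_pos hH, div_le_iff₀ hH]
    exact hr.1.2.trans key

theorem Good.adj_bounds (hX : X.Good) {z : ℝ} (hz0 : 0 < z) (hz : z ^ X.c ≤ 1 / 2)
    (hz1 : z ≤ 1 / 400) {k₀ : ℕ} (he : X.e k₀ ^ X.c ≤ z) (n : ℕ) :
    |(X.adj k₀ n).1 - 1| ≤ 4 * z * (1 - (1 / 2) ^ n) ∧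
      |(X.adj k₀ n).2| ≤ 4 * z * (1 - (1 / 2) ^ n) := by
  induction n with
  | zero => simp [adj]
  | succ n ih =>
    obtain ⟨h1, h2⟩ := ih
    have hp0 : (0 : ℝ) < (1 / 2) ^ n := by positivity
    have hp1 : ((1 : ℝ) / 2) ^ n ≤ 1 := pow_le_one₀ (by norm_num) (by norm_num)
    have hps : ((1 : ℝ) / 2) ^ (n + 1) = (1 / 2) ^ n / 2 := by ring
    have hzp : 0 < z * (1 / 2) ^ n := by positivity
    have hα : |(X.adj k₀ n).1| ≤ 2 := by
      have : |(X.adj k₀ n).1| ≤ |(X.adj k₀ n).1 - 1| + |(1 : ℝ)| := by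
        have := abs_add_le ((X.adj k₀ n).1 - 1) 1
        simpa using this
      rw [abs_one] at this
      nlinarith
    by_cases hr : X.Reg (k₀ + n)
    · obtain ⟨hy, hx⟩ := hX.reg_bounds hr
      have hez := hX.e_pow hz0 hz he n
      have hy' := hy.trans hez
      have hx' := hx.trans hez
      simp only [adj, if_pos hr]
      rw [hps]
      constructor
      · have : (X.adj k₀ n).1 * (1 + X.yJ (k₀ + n)) - 1
            = ((X.adj k₀ n).1 - 1) + (X.adj k₀ n).1 * X.yJ (k₀ + n) := by ring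
        rw [this]
        refine (abs_add_le _ _).trans ?_
        rw [abs_mul]
        have h3 : |(X.adj k₀ n).1| * |X.yJ (k₀ + n)| ≤ 2 * (z * (1 / 2) ^ n) :=
          mul_le_mul hα hy' (abs_nonneg _) (by norm_num)
        linarith
      · refine (abs_sub _ _).trans ?_
        rw [abs_mul]
        have h3 : |(X.adj k₀ n).1| * |X.xJ (k₀ + n)| ≤ 2 * (z * (1 / 2) ^ n) :=
          mul_le_mul hα hx' (abs_nonneg _) (by norm_num)
        linarith
    · simp only [adj, if_neg hr]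
      rw [hps]
      constructor <;> linarith

/-- the properties of the adjustments -/
structure Adj (X : Chain) (α β : ℕ → ℝ) (k₀ : ℕ) : Prop where
  αb : ∀ k, |α k - 1| ≤ 1 / 100
  βb : ∀ k, |β k| ≤ 1 / 100
  step : ∀ k, k₀ ≤ k → X.Reg k → α (k + 1) = α k * (1 + X.yJ k) ∧ β (k + 1) = β k - α k * X.xJ k

theorem Good.exists_adj (hX : X.Good) : ∃ α β k₀, Adj X α β k₀ := by
  have hc := hX.c_pos
  obtain ⟨z, hz0, hz, hz1⟩ : ∃ z : ℝ, 0 < z ∧ z ^ X.c ≤ 1 / 2 ∧ z ≤ 1 / 400 := by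
    refine ⟨min ((1 / 2) ^ (X.c)⁻¹) (1 / 400), by positivity, ?_, min_le_right _ _⟩
    calc (min ((1 / 2 : ℝ) ^ (X.c)⁻¹) (1 / 400)) ^ X.c ≤ ((1 / 2 : ℝ) ^ (X.c)⁻¹) ^ X.c :=
          Real.rpow_le_rpow (by positivity) (min_le_left _ _) hc.le
      _ = 1 / 2 := by
        rw [← Real.rpow_mul (by positivity), inv_mul_cancel₀ hc.ne', Real.rpow_one]
  obtain ⟨k₀, hk₀⟩ := hX.e_lim (η := z ^ (X.c)⁻¹) (by positivity)
  have he : X.e k₀ ^ X.c ≤ z := by
    calc X.e k₀ ^ X.c ≤ (z ^ (X.c)⁻¹) ^ X.c := Real.rpow_le_rpow (hX.e_pos _).le hk₀ hc.le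
      _ = z := by rw [← Real.rpow_mul hz0.le, inv_mul_cancel₀ hc.ne', Real.rpow_one]
  have hb := hX.adj_bounds hz0 hz hz1 he
  have hle : ∀ n : ℕ, 4 * z * (1 - (1 / 2 : ℝ) ^ n) ≤ 1 / 100 := fun n => by
    have : (0 : ℝ) < (1 / 2) ^ n := by positivity
    nlinarith
  refine ⟨fun k => (X.adj k₀ (k - k₀)).1, fun k => (X.adj k₀ (k - k₀)).2, k₀,
    fun k => (hb _).1.trans (hle _), fun k => (hb _).2.trans (hle _), fun k hk hr => ?_⟩
  obtain ⟨n, rfl⟩ := Nat.exists_eq_add_of_le hk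
  have h1 : k₀ + n + 1 - k₀ = n + 1 := by omega
  have h2 : k₀ + n - k₀ = n := by omega
  simp only [h1, h2]
  simp [adj, if_pos hr]

/-! ### the flow -/

/-- the flow of a chain -/
def toFlow (X : Chain) (α β : ℕ → ℝ) : Flow where
  p k := -Real.log (X.T k)
  L k s := X.L k (Real.exp (-s)) + Real.log (α k)
  M k s := α k * (X.a k (Real.exp (-s)) / X.H k (Real.exp (-s))) + β k
  L' k s := Real.exp (-s) * X.H' k (Real.exp (-s)) / X.H k (Real.exp (-s)) - 2
  M' k s := -(α k * (Real.exp (-s) * X.a' k (Real.exp (-s)) / X.H k (Real.exp (-s)) -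
    X.a k (Real.exp (-s)) / X.H k (Real.exp (-s)) *
      (Real.exp (-s) * X.H' k (Real.exp (-s)) / X.H k (Real.exp (-s)))))

variable {α β : ℕ → ℝ} {k₀ : ℕ}

theorem Adj.α_pos (hA : Adj X α β k₀) (k : ℕ) : 99 / 100 ≤ α k := by
  have := (abs_le.1 (hA.αb k)).1
  linarith

theorem Adj.log_α (hA : Adj X α β k₀) (k : ℕ) : |Real.log (α k)| ≤ 1 / 50 := by
  have h1 := hA.α_pos k
  have h2 := (abs_le.1 (hA.αb k)).2
  rw [abs_le]
  constructor
  · have h3 := Real.one_sub_inv_le_log_of_pos (show 0 < α k by linarith)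
    have h4 : (α k)⁻¹ ≤ 100 / 99 := by
      rw [inv_le_comm₀ (by linarith) (by norm_num)]
      norm_num
      linarith
    linarith
  · have h3 := Real.log_le_sub_one_of_pos (show 0 < α k by linarith)
    linarith

theorem Good.win_iff (hX : X.Good) {k : ℕ} {s : ℝ} :
    (X.toFlow α β).Win k s ↔ X.Win k (Real.exp (-s)) := by
  have h1 := hX.T_pos k
  have h2 := hX.T_pos (k + 1)
  simp only [Flow.Win, toFlow, Chain.Win]
  rw [← Real.log_le_iff_le_exp h2, ← Real.le_log_iff_exp_le h1]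
  constructor
  · rintro ⟨h3, h4⟩; exact ⟨by linarith, by linarith⟩
  · rintro ⟨h3, h4⟩; exact ⟨by linarith, by linarith⟩

theorem Good.win_log (hX : X.Good) {k : ℕ} {t : ℝ} (ht : X.Win k t) :
    (X.toFlow α β).Win k (-Real.log t) := by
  rw [hX.win_iff, neg_neg, Real.exp_log (hX.win_pos ht)]
  exact ht

theorem Adj.L_lo (hA : Adj X α β k₀) (k : ℕ) (s : ℝ) :
    X.L k (Real.exp (-s)) - 1 / 50 ≤ (X.toFlow α β).L k s := by
  have := (abs_le.1 (hA.log_α k)).1
  simp only [toFlow]; linarith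

theorem Adj.L_up (hA : Adj X α β k₀) (k : ℕ) (s : ℝ) :
    (X.toFlow α β).L k s ≤ X.L k (Real.exp (-s)) + 1 / 50 := by
  have := (abs_le.1 (hA.log_α k)).2
  simp only [toFlow]; linarith

/-- the collars of the chain are inside the collars of the flow -/
theorem Good.collar (hX : X.Good) (hA : Adj X α β k₀) {i : ℕ} {y t : ℝ} (hi : X.Win i y)
    (ht : 0 < t) (hy : y ≤ t * (1 + ((X.L i y)⁻¹) ^ 6)) :
    -Real.log t - -Real.log y ≤ 2 * (((X.toFlow α β).L i (-Real.log y))⁻¹) ^ 6 := by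
  have hy0 := hX.win_pos hi
  have hL := hX.le_L hi
  have hLp : 0 < X.L i y := by linarith
  have h1 : Real.log y - Real.log t ≤ ((X.L i y)⁻¹) ^ 6 := by
    rw [← Real.log_div hy0.ne' ht.ne']
    refine (Real.log_le_sub_one_of_pos (by positivity)).trans ?_
    rw [sub_le_iff_le_add, div_le_iff₀ ht]
    linarith
  have h2 : (X.toFlow α β).L i (-Real.log y) ≤ X.L i y + 1 / 50 := by
    have := hA.L_up i (-Real.log y)
    rwa [neg_neg, Real.exp_log hy0] at this
  have h3 : 0 < (X.toFlow α β).L i (-Real.log y) := by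
    have := hA.L_lo i (-Real.log y)
    rw [neg_neg, Real.exp_log hy0] at this
    linarith
  set l := (X.toFlow α β).L i (-Real.log y) with hl
  have h4 : (X.L i y)⁻¹ ≤ 501 / 500 * l⁻¹ := by
    rw [← div_eq_mul_inv, le_div_iff₀ h3, ← div_eq_inv_mul, div_le_iff₀ hLp]
    linarith
  have h5 : ((X.L i y)⁻¹) ^ 6 ≤ (501 / 500 * l⁻¹) ^ 6 :=
    pow_le_pow_left₀ (by positivity) h4 6
  have h6 : (501 / 500 * l⁻¹) ^ 6 ≤ 2 * (l⁻¹) ^ 6 := by
    rw [mul_pow]
    refine mul_le_mul_of_nonneg_right (by norm_num) (by positivity)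
  linarith

theorem Good.hasDerivAt_L (hX : X.Good) {k : ℕ} {s : ℝ} (h : X.Win k (Real.exp (-s))) :
    HasDerivAt ((X.toFlow α β).L k) ((X.toFlow α β).L' k s) s := by
  have ht : HasDerivAt (fun s : ℝ => Real.exp (-s)) (-Real.exp (-s)) s := by
    have := (hasDerivAt_neg s).exp
    simpa using this
  have hH := (hX.hasH k _ h).comp s ht
  have hp := hX.H_pos k _ h
  have h1 : HasDerivAt (fun s : ℝ => Real.log (X.H k (Real.exp (-s))))
      (X.H' k (Real.exp (-s)) * -Real.exp (-s) / X.H k (Real.exp (-s))) s :=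
    HasDerivAt.log hH hp.ne'
  have h2 : HasDerivAt (fun s : ℝ => -Real.log (X.H k (Real.exp (-s))) - 2 * s + Real.log (α k))
      (-(X.H' k (Real.exp (-s)) * -Real.exp (-s) / X.H k (Real.exp (-s))) - 2 * 1) s :=
    (h1.neg.sub ((hasDerivAt_id s).const_mul 2)).add_const _
  refine (h2.congr_of_eventuallyEq ?_).congr_deriv ?_
  · -- equality near `s`
    have hc : ContinuousAt (fun s : ℝ => X.H k (Real.exp (-s))) s := hH.continuousAt
    filter_upwards [hc.eventually (lt_mem_nhds hp)] with x hx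
    simp only [toFlow, Chain.L, Chain.h]
    rw [Real.log_inv, Real.log_div hx.ne' (by positivity), Real.log_pow, Real.log_exp]
    push_cast
    ring
  · simp only [toFlow]
    ring

theorem Good.hasDerivAt_M (hX : X.Good) {k : ℕ} {s : ℝ} (h : X.Win k (Real.exp (-s))) :
    HasDerivAt ((X.toFlow α β).M k) ((X.toFlow α β).M' k s) s := by
  have ht : HasDerivAt (fun s : ℝ => Real.exp (-s)) (-Real.exp (-s)) s := by
    have := (hasDerivAt_neg s).exp
    simpa using this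
  have hH := (hX.hasH k _ h).comp s ht
  have ha := (hX.hasa k _ h).comp s ht
  have hp := hX.H_pos k _ h
  have h1 := ((ha.div hH hp.ne').const_mul (α k)).add_const (β k)
  refine h1.congr_deriv ?_
  simp only [toFlow, Function.comp]
  have := hp.ne'
  field_simp
  ring

theorem Good.eventually_lim (hX : X.Good) (α β : ℕ → ℝ) {η : ℝ} (hη : 0 < η) :
    ∃ s₀ : ℝ, ∀ k s, (X.toFlow α β).Win k s → s₀ ≤ s →
      Real.exp (-s) ≤ η ∧ X.h k (Real.exp (-s)) ≤ η := by
  obtain ⟨t₀, ht₀, hlim⟩ := hX.lim η hη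
  refine ⟨-Real.log (min t₀ η), fun k s hk hs => ?_⟩
  have h1 : Real.exp (-s) ≤ min t₀ η := by
    rw [← Real.le_log_iff_exp_le (by positivity)]
    linarith
  exact ⟨h1.trans (min_le_right _ _), (hlim k _ (hX.win_iff.1 hk) (h1.trans (min_le_left _ _))).1⟩

/-- `Up` gives `Bdd` -/
theorem Good.up (hX : X.Good) (hA : Adj X α β k₀) : ∃ D : ℝ, 1 ≤ D ∧ ∀ τ > 0, ∃ s₀ : ℝ, ∀ k s,
    (X.toFlow α β).Win k s → s₀ ≤ s → (X.toFlow α β).Up k s →
      X.Win k (Real.exp (-s)) ∧ Real.exp (-s) ≤ τ ∧ X.h k (Real.exp (-s)) ≤ τ ∧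
        0 < D * X.h k (Real.exp (-s)) ∧ D * X.h k (Real.exp (-s)) ≤ τ ∧
        X.Bdd (Real.exp (-s)) (D * X.h k (Real.exp (-s))) := by
  obtain ⟨C, hC, t₀, ht₀, habove⟩ := hX.bdd_of_above
  set E : ℝ := Real.exp (51 / 10) with hE
  have hE1 : 1 ≤ E := Real.one_le_exp (by norm_num)
  refine ⟨C * E, by nlinarith, fun τ hτ => ?_⟩
  obtain ⟨s₀, hs₀⟩ := hX.eventually_lim α β (η := min (min t₀ τ / (C * E)) (min t₀ τ)) (by positivity)
  refine ⟨s₀, fun k s hk hs hup => ?_⟩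
  obtain ⟨h1, h2⟩ := hs₀ k s hk hs
  have hw := hX.win_iff.1 hk
  set t := Real.exp (-s) with ht
  have hh := hX.h_pos hw
  have h3 : C * E * X.h k t ≤ min t₀ τ := by
    have := h2.trans (min_le_left _ _)
    rw [le_div_iff₀ (by positivity)] at this
    linarith
  have h4 : E * X.h k t ≤ C * E * X.h k t := by
    have : 0 < E * X.h k t := by positivity
    nlinarith
  have h5 := h1.trans (min_le_right _ _)
  refine ⟨hw, h5.trans (min_le_right _ _), (h2.trans (min_le_right _ _)).trans (min_le_right _ _),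
    by positivity, h3.trans (min_le_right _ _), ?_⟩
  rw [mul_assoc]
  refine habove k t (E * X.h k t) hw (h5.trans (min_le_left _ _)) (by positivity)
    ((h4.trans h3).trans (min_le_left _ _)) ?_
  intro i y hi hty hy
  have hy0 := hX.win_pos hi
  have ht0 : 0 < t := hX.win_pos hw
  have hc := hX.collar hA hi ht0 hy
  have hlt : -Real.log t = s := by rw [ht, Real.log_exp, neg_neg]
  rw [hlt] at hc
  have h6 := hup i (-Real.log y) (hX.win_log hi) (by
    rw [← hlt]; exact neg_le_neg (Real.log_le_log ht0 hty)) hc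
  have h7 := hA.L_up i (-Real.log y)
  rw [neg_neg, Real.exp_log hy0] at h7
  have h8 := hA.L_lo k s
  rw [← ht] at h8
  have h9 : X.L k t - 51 / 10 ≤ X.L i y := by linarith
  rw [← hX.exp_neg_L hi, ← hX.exp_neg_L hw, hE, ← Real.exp_add]
  exact Real.exp_le_exp.2 (by linarith)

theorem L_ge_of_h_le (hX : X.Good) {i k : ℕ} {x t u : ℝ} (hi : X.Win i x) (hk : X.Win k t)
    (hu : 0 < u) (h : X.h i x ≤ u * X.h k t) : X.L k t - Real.log u ≤ X.L i x := by
  have h1 := Real.log_le_log (hX.h_pos hi) h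
  rw [Real.log_mul hu.ne' (hX.h_pos hk).ne'] at h1
  rw [L, L, Real.log_inv, Real.log_inv]
  linarith

theorem Good.fact_aux (hX : X.Good) (hA : Adj X α β k₀) {k : ℕ} {s D : ℝ} (hD : 1 ≤ D)
    (hw : X.Win k (Real.exp (-s)))
    (ho : Ode X.κ (((Real.log (D * X.h k (Real.exp (-s)))⁻¹)⁻¹) ^ 2 * (D * X.h k (Real.exp (-s))) *
      (Real.exp (-s)) ^ 2) (Real.exp (-s)) (X.H k (Real.exp (-s))) (X.j k (Real.exp (-s)))
      (X.a k (Real.exp (-s))) (X.b k (Real.exp (-s))) (X.H' k (Real.exp (-s)))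
      (X.a' k (Real.exp (-s))))
    (hlow : X.H k (Real.exp (-s)) - (56 * X.κ * Real.exp (-s) +
      ((Real.log (D * X.h k (Real.exp (-s)))⁻¹)⁻¹) ^ 2) * (D * X.h k (Real.exp (-s))) *
        (Real.exp (-s)) ^ 2 ≤ X.a k (Real.exp (-s)))
    (hL : 2 * Real.log D ≤ X.L k (Real.exp (-s)))
    (hs1 : 57 * D * X.κ * Real.exp (-s) ≤ 1 / 200)
    (hs2 : 4 * D ≤ 1 / 200 * X.L k (Real.exp (-s))) :
    ∃ N, Pt ((472 * D * X.κ + 384 * D) * (Real.exp (-s) + (((X.toFlow α β).L k s)⁻¹) ^ 2))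
      ((X.toFlow α β).L' k s) ((X.toFlow α β).M' k s) ((X.toFlow α β).M k s) N := by
  have hLlo := hA.L_lo k s
  have hLup := hA.L_up k s
  set t := Real.exp (-s) with ht
  set H := X.H k t with hHd
  set Lf := (X.toFlow α β).L k s with hLf
  have hH : 0 < H := hX.H_pos k t hw
  have ht0 : 0 < t := hX.win_pos hw
  have hL10 := hX.le_L hw
  have hκ := hX.κ_nn
  have hhp := hX.h_pos hw
  have hht : X.h k t * t ^ 2 = H := by rw [Chain.h, ← hHd]; field_simp
  set Λ := (Real.log (D * X.h k t)⁻¹)⁻¹ with hΛ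
  have hΛlog : Real.log (D * X.h k t)⁻¹ = X.L k t - Real.log D := by
    rw [Real.log_inv, Real.log_mul (by positivity) hhp.ne', L, Real.log_inv]; ring
  have hlogD : 0 ≤ Real.log D := Real.log_nonneg hD
  have hΛ0 : 0 < Λ := by rw [hΛ, hΛlog]; refine inv_pos.2 (by linarith)
  have hΛ2 : Λ ≤ 2 * (X.L k t)⁻¹ := by
    rw [hΛ, hΛlog, ← div_eq_mul_inv, inv_eq_one_div, div_le_div_iff₀ (by linarith) (by linarith)]
    linarith
  have hLf0 : 0 < Lf := by linarith
  have hΛ3 : Λ ≤ 4 * Lf⁻¹ := by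
    refine hΛ2.trans ?_
    rw [← div_eq_mul_inv, ← div_eq_mul_inv, div_le_div_iff₀ (by linarith) hLf0]
    linarith
  have hΛsq : Λ ^ 2 ≤ 16 * (Lf⁻¹) ^ 2 := by
    calc Λ ^ 2 ≤ (4 * Lf⁻¹) ^ 2 := pow_le_pow_left₀ hΛ0.le hΛ3 2
      _ = _ := by ring
  have hΛD : D * Λ ^ 2 ≤ 1 / 200 := by
    have h1 : Λ ^ 2 ≤ Λ * 1 := by
      rw [sq]
      refine mul_le_mul_of_nonneg_left ?_ hΛ0.le
      refine hΛ2.trans ?_
      rw [← div_eq_mul_inv, div_le_one (by linarith)]
      linarith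
    have h2 : D * Λ ^ 2 ≤ D * (2 * (X.L k t)⁻¹) :=
      mul_le_mul_of_nonneg_left (by linarith) (by linarith)
    refine h2.trans ?_
    rw [show D * (2 * (X.L k t)⁻¹) = (2 * D) / X.L k t by field_simp,
      div_le_iff₀ (by linarith)]
    linarith
  have hδ : Λ ^ 2 * (D * X.h k t) * t ^ 2 = (D * Λ ^ 2) * H := by rw [← hht]; ring
  rw [hδ] at ho
  have hlow' : H - (56 * X.κ * t + Λ ^ 2) * D * H ≤ X.a k t := by
    have : (56 * X.κ * t + Λ ^ 2) * (D * X.h k t) * t ^ 2 = (56 * X.κ * t + Λ ^ 2) * D * H := by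
      rw [← hht]; ring
    rw [this] at hlow; exact hlow
  have hκt : 0 ≤ X.κ * t := by positivity
  have hκD : X.κ * t ≤ D * X.κ * t := by
    rw [mul_assoc]
    have : 0 ≤ X.κ * t := hκt
    nlinarith
  have hsqrt : √(X.b k t * H) = H * √(X.b k t / H) := by
    have : X.b k t * H = H ^ 2 * (X.b k t / H) := by field_simp
    rw [this, Real.sqrt_mul (by positivity), Real.sqrt_sq hH.le]
  refine ⟨X.j k t / H, ?_⟩
  have key := pt_alg (k1 := X.κ * t) (ρ := D * Λ ^ 2) (r := (56 * X.κ * t + Λ ^ 2) * D)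
    (N := X.j k t / H) (R := X.a k t / H) (B := X.b k t / H) (l' := t * X.H' k t / H)
    (q' := t * X.a' k t / H) (α := α k) (β := β k)
    (ε := (472 * D * X.κ + 384 * D) * (t + (Lf⁻¹) ^ 2))
    hκt (by positivity) (by positivity) (by linarith) (by linarith) ?_ ?_ ?_ ?_ ?_ (hA.αb k)
    (hA.βb k) ?_
  · exact key
  · rw [div_pow, div_le_div_iff₀ (by positivity) hH]
    have := ho.cs
    nlinarith
  · have := ho.dH
    have h1 : t * X.H' k t / H - 2 * (X.j k t / H) = (t * X.H' k t - 2 * X.j k t) / H := by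
      field_simp
    rw [h1, abs_div, abs_of_pos hH, div_le_iff₀ hH]
    linarith
  · have := ho.da
    rw [hsqrt] at this
    have hm : max (X.j k t - X.a k t) 0 = H * max (X.j k t / H - X.a k t / H) 0 := by
      rw [mul_max_of_nonneg _ _ hH.le, mul_zero, mul_sub, mul_div_cancel₀ _ hH.ne',
        mul_div_cancel₀ _ hH.ne']
    have hj : |X.j k t| = H * |X.j k t / H| := by
      rw [abs_div, abs_of_pos hH, mul_div_cancel₀ _ hH.ne']
    rw [hm, hj] at this
    rw [le_div_iff₀ hH]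
    refine le_trans (le_of_eq ?_) this
    field_simp
  · have := ho.gap
    rw [← sub_div, div_le_iff₀ hH]
    linarith
  · rw [le_div_iff₀ hH]
    linarith
  · have e1 : X.κ * t ≤ D * X.κ * t := hκD
    have e2 : D * Λ ^ 2 ≤ D * (16 * (Lf⁻¹) ^ 2) := mul_le_mul_of_nonneg_left hΛsq (by linarith)
    have e3 : 0 ≤ D * X.κ * (Lf⁻¹) ^ 2 := by positivity
    have e4 : 0 ≤ D * t := by positivity
    nlinarith

/-- **Conversion**: a good chain gives a good flow. -/
theorem Good.flow (hX : X.Good) : ∃ (F : Flow) (C : ℝ), F.Good C := by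
  obtain ⟨α, β, k₀, hA⟩ := hX.exists_adj
  obtain ⟨D, hD, hup⟩ := hX.up hA
  have hκ := hX.κ_nn
  have hlog : 0 ≤ Real.log (4 * D) := Real.log_nonneg (by linarith)
  set C : ℝ := 472 * D * X.κ + 384 * D + Real.log (4 * D) + 1 with hC
  have hC0 : 0 ≤ C := by positivity
  refine ⟨X.toFlow α β, C, ?_⟩
  refine
    { C_nn := hC0
      p_mono := ?_
      p_lim := ?_
      derL := fun k s h => hX.hasDerivAt_L (hX.win_iff.1 h)
      derM := fun k s h => hX.hasDerivAt_M (hX.win_iff.1 h)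
      L_ge := ?_
      L_lim := ?_
      switch := ?_
      deep := ?_
      decay := ?_
      fact := ?_ }
  · intro i k hik
    exact neg_lt_neg (Real.log_lt_log (hX.T_pos k) (hX.T_anti hik))
  · have h1 : Tendsto X.T atTop (𝓝[>] 0) :=
      tendsto_nhdsWithin_iff.2 ⟨hX.T_lim, Eventually.of_forall fun k => hX.T_pos k⟩
    exact tendsto_neg_atBot_atTop.comp (Real.tendsto_log_nhdsGT_zero.comp h1)
  · intro k s h
    have h1 := hX.le_L (hX.win_iff.1 h)
    have h2 := hA.L_lo k s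
    linarith
  · intro B
    obtain ⟨s₀, hs₀⟩ := hX.eventually_lim α β (η := Real.exp (-(B + 1))) (Real.exp_pos _)
    refine ⟨s₀, fun k s hk hs => ?_⟩
    have hw := hX.win_iff.1 hk
    have h1 := (hs₀ k s hk hs).2
    have h2 := hA.L_lo k s
    rw [← hX.exp_neg_L hw] at h1
    have h3 := Real.exp_le_exp.1 h1
    linarith
  · -- switch
    refine ⟨-Real.log (X.T (k₀ + 1)), fun k hk => ?_⟩
    have hkk : k₀ ≤ k := by
      by_contra hcon
      push Not at hcon
      have h1 : X.T (k₀ + 1) < X.T (k + 1) := hX.T_anti (by omega)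
      have h2 := Real.log_lt_log (hX.T_pos _) h1
      have h3 : (X.toFlow α β).p (k + 1) = -Real.log (X.T (k + 1)) := rfl
      rw [h3] at hk
      linarith
    have hp : (X.toFlow α β).p (k + 1) = -Real.log (X.T (k + 1)) := rfl
    have hT := hX.T_pos (k + 1)
    have hw := hX.win_bot k
    have hw' := hX.win_top (k + 1)
    have hH := hX.H_pos k _ hw
    have hH' := hX.H_pos (k + 1) _ hw'
    have hexp : Real.exp (-(-Real.log (X.T (k + 1)))) = X.T (k + 1) := by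
      rw [neg_neg, Real.exp_log hT]
    by_cases hr : X.Reg k
    · left
      obtain ⟨h1, h2⟩ := hA.step k hkk hr
      have hα := hA.α_pos k
      have hy : 1 + X.yJ k = X.H (k + 1) (X.T (k + 1)) / X.H k (X.T (k + 1)) := by
        rw [yJ]; field_simp; ring
      constructor
      · rw [hp]
        simp only [toFlow]
        rw [hexp, h1, hy, Real.log_mul (by linarith) (by positivity),
          Real.log_div hH'.ne' hH.ne', L, L, Chain.h, Chain.h, Real.log_inv, Real.log_inv,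
          Real.log_div hH'.ne' (by positivity), Real.log_div hH.ne' (by positivity)]
        ring
      · rw [hp]
        simp only [toFlow]
        rw [hexp, h1, h2, hy, xJ]
        field_simp
        ring
    · right
      rcases hX.switch k with h | ⟨l, y, h1, h2, h3, h4, h5⟩
      · exact absurd h hr
      · have hy0 := hX.win_pos h1.1
        refine ⟨l, -Real.log y, hX.win_log h1.1, ?_, ?_, ?_, ?_⟩
        · rw [hp]; exact neg_le_neg (Real.log_le_log hT h1.2.1)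
        · rw [hp]; exact hX.collar hA h1.1 hT h1.2.2
        · have h6 := L_ge_of_h_le hX hw h1.1 (u := Real.exp (-10)) (Real.exp_pos _) (by
            rw [Real.exp_neg, ← div_eq_inv_mul, le_div_iff₀ (Real.exp_pos _)]
            linarith)
          rw [Real.log_exp] at h6
          have h7 := hA.L_up l (-Real.log y)
          rw [neg_neg, Real.exp_log hy0] at h7
          have h8 := hA.L_lo k (-Real.log (X.T (k + 1)))
          rw [hexp] at h8
          rw [hp]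
          linarith
        · have h6 := L_ge_of_h_le hX hw' h1.1 (u := Real.exp (-10)) (Real.exp_pos _) (by
            rw [Real.exp_neg, ← div_eq_inv_mul, le_div_iff₀ (Real.exp_pos _)]
            linarith)
          rw [Real.log_exp] at h6
          have h7 := hA.L_up l (-Real.log y)
          rw [neg_neg, Real.exp_log hy0] at h7
          have h8 := hA.L_lo (k + 1) (-Real.log (X.T (k + 1)))
          rw [hexp] at h8
          rw [hp]
          linarith
  · -- deep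
    obtain ⟨t₁, ht₁, hdeep⟩ := hX.bdd_deep
    obtain ⟨s₀, hs₀⟩ := hup t₁ ht₁
    refine ⟨s₀, fun k s hk hs hU i x hi hsx => ?_⟩
    obtain ⟨hw, h1, -, h2, h3, h4⟩ := hs₀ k s hk hs hU
    have hwi := hX.win_iff.1 hi
    have hxt : Real.exp (-x) ≤ Real.exp (-s) := Real.exp_le_exp.2 (by linarith)
    have h5 := hdeep _ _ (hX.top_le hw) h1 h2 h3 h4 (Real.exp (-x)) (Real.exp_pos _) hxt
    have h6 := h5.self hX hwi
    have h7 : Real.exp (-x) / Real.exp (-s) = Real.exp (-(x - s)) := by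
      rw [← Real.exp_sub]; ring_nf
    rw [h7] at h6
    have h8 := L_ge_of_h_le hX hwi hw (u := 4 * D * Real.exp (-(x - s)) ^ 2) (by positivity) (by
      linarith)
    rw [Real.log_mul (by positivity) (by positivity), Real.log_pow, Real.log_exp] at h8
    push_cast at h8
    have h9 := hA.L_up k s
    have h10 := hA.L_lo i x
    have h11 : 0 ≤ 472 * D * X.κ + 384 * D := by positivity
    linarith
  · -- decay
    intro B
    obtain ⟨t₁, ht₁, hdec⟩ := hX.decay (Real.exp (-(B + 1)) / D) (by positivity)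
    obtain ⟨s₀, hs₀⟩ := hup t₁ ht₁
    refine ⟨s₀, fun k s hk hs hU i x hi hsx => ?_⟩
    obtain ⟨hw, h1, -, h2, h3, h4⟩ := hs₀ k s hk hs hU
    have hwi := hX.win_iff.1 hi
    have hxt : Real.exp (-x) ≤ 2 / 3 * Real.exp (-s) := by
      have h5 : Real.exp (-x) ≤ Real.exp (-1) * Real.exp (-s) := by
        rw [← Real.exp_add]; exact Real.exp_le_exp.2 (by linarith)
      have h6 : Real.exp (-1) ≤ 2 / 3 := by
        rw [Real.exp_neg, inv_le_comm₀ (Real.exp_pos _) (by norm_num)]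
        have := Real.add_one_le_exp (1 : ℝ)
        norm_num at this ⊢
        linarith
      exact h5.trans (mul_le_mul_of_nonneg_right h6 (Real.exp_pos _).le)
    have h5 := hdec k _ _ hw h1 h2 h3 h4 i _ hwi hxt
    have h6 : Real.exp (-(B + 1)) / D * (D * X.h k (Real.exp (-s)))
        = Real.exp (-(B + 1)) * X.h k (Real.exp (-s)) := by field_simp
    rw [h6] at h5
    have h8 := L_ge_of_h_le hX hwi hw (Real.exp_pos _) h5
    rw [Real.log_exp] at h8
    have h9 := hA.L_up k s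
    have h10 := hA.L_lo i x
    linarith
  · -- fact
    obtain ⟨t₂, ht₂, hode⟩ := hX.ode_two
    obtain ⟨t₃, ht₃, hlow⟩ := hX.low
    set τ : ℝ := min (min t₂ t₃) (min (1 / 200 / (57 * D * X.κ + 1)) (Real.exp (-(800 * D))))
      with hτ
    obtain ⟨s₀, hs₀⟩ := hup τ (by positivity)
    refine ⟨s₀, fun k s hk hs hU => ?_⟩
    obtain ⟨hw, h1, h1', h2, h3, h4⟩ := hs₀ k s hk hs hU
    have hτ2 : τ ≤ t₂ := (min_le_left _ _).trans (min_le_left _ _)
    have hτ3 : τ ≤ t₃ := (min_le_left _ _).trans (min_le_right _ _)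
    have hτ4 : τ ≤ 1 / 200 / (57 * D * X.κ + 1) := (min_le_right _ _).trans (min_le_left _ _)
    have hτ5 : τ ≤ Real.exp (-(800 * D)) := (min_le_right _ _).trans (min_le_right _ _)
    have ho := hode k _ _ hw (h1.trans hτ2) h2 (h3.trans hτ2) h4
    have hl := hlow k _ _ hw (h1.trans hτ3) h2 (h3.trans hτ3) h4
    have hLL : 800 * D ≤ X.L k (Real.exp (-s)) := by
      have h5 := h1'.trans hτ5
      rw [← hX.exp_neg_L hw] at h5
      linarith [Real.exp_le_exp.1 h5]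
    have hlogD : Real.log D ≤ D := by
      have := Real.log_le_sub_one_of_pos (show 0 < D by linarith)
      linarith
    have hsm : 57 * D * X.κ * Real.exp (-s) ≤ 1 / 200 := by
      have h5 := h1.trans hτ4
      rw [le_div_iff₀ (by positivity)] at h5
      have := Real.exp_pos (-s)
      nlinarith
    obtain ⟨N, hN⟩ := hX.fact_aux hA hD hw ho hl (by linarith) hsm (by linarith)
    refine ⟨N, hN.lo, hN.up, hN.Mlo, hN.MN, hN.big, fun h => (hN.sml h).trans ?_⟩
    have h5 := hN.Mlo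
    have h6 : 0 ≤ Real.exp (-s) + (((X.toFlow α β).L k s)⁻¹) ^ 2 := by positivity
    refine mul_le_mul_of_nonneg_right (mul_le_mul_of_nonneg_right ?_ h6) (by linarith)
    rw [hC]; linarith

end Chain

end

end Vale.Agent.P214.ABS
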