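import Mathlib.Analysis.SpecialFunctions.Pow.Real
import Mathlib.Analysis.Calculus.Deriv.Basic
import Mathlib.Analysis.SpecialFunctions.Log.Basic

/-!
# P214, block ABS: the abstract data of the ending (TXT-WIN-4)

Everything is real analysis.  Window `k` is the set of scales `t ∈ [T (k+1), T k]`; on it the `k`-th
exact reference is active.  `H k` is the (kernel) height, `j k` the outer integral
`t^{2-m} ∫ K tr(D om J P)`, `a k = 2 t² t^{-m} (∫ K dν - Q ∫_Σ K)`,
`b k = t^{-m} ∫ k vp⁻¹ |rh^⊥|²`.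
-/

open Set Filter Topology

namespace Vale.Agent.P214.ABS

noncomputable section

/-- The facts at one scale `t` for one exact reference.  `κ * t` is the curvature error, `δ` is the
absolute error coming from the rate lemma and from quartic terms. -/
structure Ode (κ δ t H j a b H' a' : ℝ) : Prop where
  pos : 0 < H
  bnn : 0 ≤ b
  cs : j ^ 2 ≤ b * H
  dH : |t * H' - 2 * j| ≤ κ * t * H + δ
  da : 2 * (a - j) + 2 * b - κ * t * (H + |j| + √(b * H) + max (j - a) 0) - δ ≤ t * a'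
  gap : a - j ≤ κ * t * H + δ

/-- The active chain of exact references. -/
structure Chain where
  /-- switch radii -/
  T : ℕ → ℝ
  /-- height -/
  H : ℕ → ℝ → ℝ
  /-- outer integral -/
  j : ℕ → ℝ → ℝ
  /-- area excess -/
  a : ℕ → ℝ → ℝ
  /-- normal part of the radial field -/
  b : ℕ → ℝ → ℝ
  /-- derivative of `H` -/
  H' : ℕ → ℝ → ℝ
  /-- derivative of `a` -/
  a' : ℕ → ℝ → ℝ
  /-- curvature -/
  κ : ℝ
  /-- exponent of the jumps and of the growth -/
  c : ℝ
  /-- dimension -/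
  m : ℕ
  /-- heights at which the references are changed -/
  e : ℕ → ℝ

namespace Chain

/-- normalised height -/
def h (X : Chain) (k : ℕ) (t : ℝ) : ℝ := X.H k t / t ^ 2

/-- `L = log (1 / h)` -/
def L (X : Chain) (k : ℕ) (t : ℝ) : ℝ := Real.log (X.h k t)⁻¹

/-- the scale `t` belongs to window `k` -/
def Win (X : Chain) (k : ℕ) (t : ℝ) : Prop := X.T (k + 1) ≤ t ∧ t ≤ X.T k

/-- all active heights at scales up to `t`, and in an (adaptive) collar above `t`, are at most `S`.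
It implies `h i x ≤ S` for `x ≤ t (1 + (log 1/S)⁻⁶)`. -/
def Bdd (X : Chain) (t S : ℝ) : Prop :=
  ∀ i x, X.Win i x → x ≤ t * (1 + ((X.L i x)⁻¹) ^ 6) → X.h i x ≤ S

/-- the switch at `T (k+1)` has size `g` -/
def Jump (X : Chain) (k : ℕ) (g : ℝ) : Prop :=
  |X.H (k + 1) (X.T (k + 1)) - X.H k (X.T (k + 1))| ≤ X.T (k + 1) ^ 2 * g ^ (1 + X.c) ∧
  |X.a (k + 1) (X.T (k + 1)) - X.a k (X.T (k + 1))| ≤ X.T (k + 1) ^ 2 * g ^ (1 + X.c)

/-- a point `y` of window `l` in the (adaptive) collar above the switch radius `T (k+1)` -/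
def Near (X : Chain) (k l : ℕ) (y : ℝ) : Prop :=
  X.Win l y ∧ X.T (k + 1) ≤ y ∧ y ≤ X.T (k + 1) * (1 + ((X.L l y)⁻¹) ^ 6)

/-- What the geometric part has to deliver. -/
structure Good (X : Chain) : Prop where
  κ_nn : 0 ≤ X.κ
  c_pos : 0 < X.c
  T_pos : ∀ k, 0 < X.T k
  T_anti : StrictAnti X.T
  T_lim : Tendsto X.T atTop (𝓝 0)
  T_one : X.T 0 ≤ 1
  hasH : ∀ k t, X.Win k t → HasDerivAt (X.H k) (X.H' k t) t
  hasa : ∀ k t, X.Win k t → HasDerivAt (X.a k) (X.a' k t) t
  H_pos : ∀ k t, X.Win k t → 0 < X.H k t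
  /-- all active heights are small (so the adaptive collars are thin) -/
  h_le : ∀ k t, X.Win k t → X.h k t ≤ Real.exp (-10)
  /-- the differential inequalities at small scales, with the absolute error
  `(log 1/S)^{-3} S t²` -/
  ode : ∃ t₀ > 0, ∀ k t S, X.Win k t → t ≤ t₀ → 0 < S → S ≤ t₀ → X.Bdd t S →
    Ode X.κ (((Real.log S⁻¹)⁻¹) ^ 3 * S * t ^ 2) t (X.H k t) (X.j k t) (X.a k t) (X.b k t)
      (X.H' k t) (X.a' k t)
  /-- monotonicity of the kernel integral inside a window -/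
  mono : ∀ k x t, X.Win k x → X.Win k t → x ≤ t → x ^ X.m * X.H k x ≤ t ^ X.m * X.H k t
  /-- superpolynomial decay at the density point (W5) -/
  decay : ∀ η > 0, ∃ t₀ > 0, ∀ k t S, X.Win k t → t ≤ t₀ → 0 < S → S ≤ t₀ → X.Bdd t S →
    ∀ i x, X.Win i x → x ≤ 2 / 3 * t → X.h i x ≤ η * S
  /-- heights and area excess tend to zero -/
  lim : ∀ η > 0, ∃ t₀ > 0, ∀ k t, X.Win k t → t ≤ t₀ → X.h k t ≤ η ∧ |X.a k t| ≤ η * t ^ 2
  /-- every switch is regular (relative error a power of the height), or irregular: the jump is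
  controlled by a point of the collar above the switch at which the height is much larger. -/
  switch : ∀ k, X.Jump k (X.h k (X.T (k + 1))) ∧ X.h k (X.T (k + 1)) ≤ X.e k ∨
    ∃ l y, X.Near k l y ∧ X.Jump k (X.h l y) ∧ X.h l y ≤ X.e k ∧
      Real.exp 10 * X.h k (X.T (k + 1)) ≤ X.h l y ∧
      Real.exp 10 * X.h (k + 1) (X.T (k + 1)) ≤ X.h l y
  /-- superexponential decrease of the heights of the switches -/
  e_pos : ∀ k, 0 < X.e k
  growth : ∀ k, X.e (k + 1) ≤ X.e k ^ (1 + X.c)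
  /-- e.g. because `e (k+1)` is a height at an active point of the collar above `T (k+1)` -/
  e_le : ∀ k t S, X.T (k + 1) ≤ t → X.Bdd t S → X.e (k + 1) ≤ S

end Chain

end

end Vale.Agent.P214.ABS
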