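import Mathlib.Analysis.SpecialFunctions.Pow.Real
import Mathlib.Analysis.Calculus.Deriv.Basic
import Mathlib.Analysis.Calculus.MeanValue
import Mathlib.Analysis.SpecialFunctions.Log.Basic
import Mathlib.Analysis.SpecialFunctions.Log.Deriv
import Mathlib.Analysis.SpecialFunctions.ExpDeriv
import Mathlib.Analysis.Calculus.Deriv.Inv

/-!
# P214, block ABS: the flow in the depth variable `s = - log t`

`L = log (1/h)`, `M = a / H` (both adjusted by small constants so that they are continuous at the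
regular switches), `N = j / H`.
-/

open Set Filter Topology

namespace Vale.Agent.P214.ABS

noncomputable section

/-- pointwise facts: `l`, `q` are the derivatives of `L`, `M`; `N` is the frequency -/
structure Pt (ε l q M N : ℝ) : Prop where
  lo : 2 * N - 3 ≤ l
  up : l ≤ 2 * N
  Mlo : 1 / 2 ≤ M
  MN : M ≤ 2 * N
  big : 2 * M + 5 ≤ N → q ≤ -(3 / 16) * N ^ 2
  sml : N ≤ 2 * M + 5 → q ≤ ε * (M + 3)

/-- data of the flow -/
structure Flow where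
  /-- switches -/
  p : ℕ → ℝ
  /-- `log (1/h)` -/
  L : ℕ → ℝ → ℝ
  /-- `a / H` -/
  M : ℕ → ℝ → ℝ
  /-- derivative of `L` -/
  L' : ℕ → ℝ → ℝ
  /-- derivative of `M` -/
  M' : ℕ → ℝ → ℝ

namespace Flow

/-- the depth `s` belongs to the (closed) window `k` -/
def Win (F : Flow) (k : ℕ) (s : ℝ) : Prop := F.p k ≤ s ∧ s ≤ F.p (k + 1)

/-- the growth of `L` in the adaptive collar above `(k, s)` is at most `5` -/
def Up (F : Flow) (k : ℕ) (s : ℝ) : Prop :=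
  ∀ i x, F.Win i x → x ≤ s → s - x ≤ 2 * ((F.L i x)⁻¹) ^ 6 → F.L k s - 5 ≤ F.L i x

/-- properties of the flow -/
structure Good (F : Flow) (C : ℝ) : Prop where
  C_nn : 0 ≤ C
  p_mono : StrictMono F.p
  p_lim : Tendsto F.p atTop atTop
  derL : ∀ k s, F.Win k s → HasDerivAt (F.L k) (F.L' k s) s
  derM : ∀ k s, F.Win k s → HasDerivAt (F.M k) (F.M' k s) s
  L_ge : ∀ k s, F.Win k s → 9 ≤ F.L k s
  L_lim : ∀ B, ∃ s₀, ∀ k s, F.Win k s → s₀ ≤ s → B ≤ F.L k s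
  switch : ∃ s₀, ∀ k, s₀ ≤ F.p (k + 1) → (F.L (k + 1) (F.p (k + 1)) = F.L k (F.p (k + 1)) ∧
      F.M (k + 1) (F.p (k + 1)) = F.M k (F.p (k + 1))) ∨
    ∃ l x, F.Win l x ∧ x ≤ F.p (k + 1) ∧ F.p (k + 1) - x ≤ 2 * ((F.L l x)⁻¹) ^ 6 ∧
      F.L l x + 9 ≤ F.L k (F.p (k + 1)) ∧ F.L l x + 9 ≤ F.L (k + 1) (F.p (k + 1))
  /-- deeper heights are smaller -/
  deep : ∃ s₀, ∀ k s, F.Win k s → s₀ ≤ s → F.Up k s → ∀ i x, F.Win i x → s ≤ x →
    F.L k s + (x - s) - C ≤ F.L i x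
  /-- super-linear growth -/
  decay : ∀ B, ∃ s₀, ∀ k s, F.Win k s → s₀ ≤ s → F.Up k s → ∀ i x, F.Win i x → s + 1 ≤ x →
    F.L k s + B ≤ F.L i x
  fact : ∃ s₀, ∀ k s, F.Win k s → s₀ ≤ s → F.Up k s →
    ∃ N, Pt (C * (Real.exp (-s) + ((F.L k s)⁻¹) ^ 2)) (F.L' k s) (F.M' k s) (F.M k s) N

end Flow

end

end Vale.Agent.P214.ABS
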