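import Mathlib.Analysis.Calculus.Deriv.Add

set_option linter.all false

/-! Block ABS (helper209): gluing of the window functions. -/

open Set Filter Topology

namespace Vale.Agent.P214.ABS

/-- **Gluing.** -/
theorem glue {p : ℕ → ℝ} (hp : StrictMono p) (hlim : Tendsto p atTop atTop) (f f' : ℕ → ℝ → ℝ)
    (hf : ∀ k s, p k ≤ s → s ≤ p (k + 1) → HasDerivAt (f k) (f' k s) s) :
    ∃ F : ℝ → ℝ, ContinuousOn F (Ici (p 0)) ∧
      (∀ k s, p k ≤ s → s ≤ p (k + 1) →
        F s = f k s - ∑ i ∈ Finset.range k, (f (i + 1) (p (i + 1)) - f i (p (i + 1)))) ∧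
      (∀ k s, p k ≤ s → s < p (k + 1) → HasDerivWithinAt F (f' k s) (Ici s) s) ∧
      (∀ k s, p k < s → s ≤ p (k + 1) → HasDerivWithinAt F (f' k s) (Iic s) s) := by
  classical
  have hex : ∀ s : ℝ, ∃ k, s < p (k + 1) := by
    intro s
    obtain ⟨k, hk⟩ := (hlim.eventually (eventually_gt_atTop s)).exists
    exact ⟨k, hk.trans (hp (Nat.lt_succ_self k))⟩
  set idx : ℝ → ℕ := fun s => Nat.find (hex s) with hidx
  set c : ℕ → ℝ := fun k => ∑ i ∈ Finset.range k, (f (i + 1) (p (i + 1)) - f i (p (i + 1))) with hc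
  have hi : ∀ k s, p k ≤ s → s < p (k + 1) → idx s = k := by
    intro k s h1 h2
    simp only [hidx]
    rw [Nat.find_eq_iff]
    refine ⟨h2, fun n hn h3 => ?_⟩
    have : p (n + 1) ≤ p k := hp.monotone hn
    linarith
  set F : ℝ → ℝ := fun s => f (idx s) s - c (idx s) with hF
  have hval : ∀ k s, p k ≤ s → s ≤ p (k + 1) → F s = f k s - c k := by
    intro k s h1 h2
    rcases h2.lt_or_eq with h3 | h3
    · simp only [hF, hi k s h1 h3]
    · have h4 : idx s = k + 1 := hi (k + 1) s h3.ge (by rw [h3]; exact hp (Nat.lt_succ_self _))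
      simp only [hF, h4]
      simp only [hc, Finset.sum_range_succ]
      rw [h3]
      ring
  have hR : ∀ k s, p k ≤ s → s < p (k + 1) → HasDerivWithinAt F (f' k s) (Ici s) s := by
    intro k s h1 h2
    have h3 : HasDerivWithinAt (fun x => f k x - c k) (f' k s) (Ici s) s :=
      ((hf k s h1 h2.le).sub_const (c k)).hasDerivWithinAt
    refine h3.congr_of_eventuallyEq ?_ (hval k s h1 h2.le)
    filter_upwards [self_mem_nhdsWithin, mem_nhdsWithin_of_mem_nhds (Iio_mem_nhds h2)] with x h4 h5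
    exact hval k x (h1.trans h4) (le_of_lt h5)
  have hL : ∀ k s, p k < s → s ≤ p (k + 1) → HasDerivWithinAt F (f' k s) (Iic s) s := by
    intro k s h1 h2
    have h3 : HasDerivWithinAt (fun x => f k x - c k) (f' k s) (Iic s) s :=
      ((hf k s h1.le h2).sub_const (c k)).hasDerivWithinAt
    refine h3.congr_of_eventuallyEq ?_ (hval k s h1.le h2)
    filter_upwards [self_mem_nhdsWithin, mem_nhdsWithin_of_mem_nhds (Ioi_mem_nhds h1)] with x h4 h5
    exact hval k x (le_of_lt h5) (le_trans h4 h2)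
  refine ⟨F, ?_, hval, hR, hL⟩
  intro s hs
  have hs0 : p 0 ≤ s := hs
  have hk1 : s < p (idx s + 1) := Nat.find_spec (hex s)
  have hk2 : p (idx s) ≤ s := by
    rcases Nat.eq_zero_or_pos (idx s) with h | h
    · rw [h]; exact hs0
    · have h3 := Nat.find_min (hex s) (m := idx s - 1) (Nat.sub_lt h one_pos)
      have h4 : idx s - 1 + 1 = idx s := by omega
      rw [h4] at h3
      exact not_lt.1 h3
  have hr : ContinuousWithinAt F (Ici s) s := (hR _ s hk2 hk1).continuousWithinAt
  rcases hs0.lt_or_eq with h0 | h0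
  · -- interior point
    have hl : ContinuousWithinAt F (Iic s) s := by
      rcases hk2.lt_or_eq with h1 | h1
      · exact (hL _ s h1 hk1.le).continuousWithinAt
      · -- `s = p (idx s)`, `idx s > 0`
        have hpos : idx s ≠ 0 := by
          intro h
          rw [h] at h1
          linarith
        obtain ⟨n, hn⟩ := Nat.exists_eq_succ_of_ne_zero hpos
        have h2 : s = p (n + 1) := by rw [← h1, hn]
        exact (hL n s (by rw [h2]; exact hp (Nat.lt_succ_self n)) h2.le).continuousWithinAt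
    exact (continuousAt_iff_continuous_left_right.2 ⟨hl, hr⟩).continuousWithinAt
  · rw [← h0] at hr ⊢
    exact hr

/-- the window containing a point -/
theorem exists_window {p : ℕ → ℝ} (hlim : Tendsto p atTop atTop) {s : ℝ} (hs : p 0 ≤ s) :
    ∃ k, p k ≤ s ∧ s < p (k + 1) := by
  classical
  have hex : ∃ k, s < p (k + 1) := by
    obtain ⟨k, hk⟩ := ((tendsto_add_atTop_iff_nat 1).2 hlim).eventually (eventually_gt_atTop s)
      |>.exists
    exact ⟨k, hk⟩
  refine ⟨Nat.find hex, ?_, Nat.find_spec hex⟩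
  rcases Nat.eq_zero_or_pos (Nat.find hex) with h | h
  · rw [h]; exact hs
  · have h3 := Nat.find_min hex (m := Nat.find hex - 1) (Nat.sub_lt h one_pos)
    have h4 : Nat.find hex - 1 + 1 = Nat.find hex := by omega
    rw [h4] at h3
    exact not_lt.1 h3

/-- a function which is monotone on every window is monotone -/
theorem glue_mono {p : ℕ → ℝ} (hp : StrictMono p) (hlim : Tendsto p atTop atTop)
    {f : ℕ → ℝ → ℝ} {F : ℝ → ℝ} {c : ℕ → ℝ}
    (hF : ∀ k s, p k ≤ s → s ≤ p (k + 1) → F s = f k s - c k)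
    (hm : ∀ k, MonotoneOn (f k) (Icc (p k) (p (k + 1)))) : MonotoneOn F (Ici (p 0)) := by
  have key : ∀ n k s s', p k ≤ s → s ≤ p (k + 1) → p (k + n) ≤ s' → s' ≤ p (k + n + 1) → s ≤ s' →
      F s ≤ F s' := by
    intro n
    induction n with
    | zero =>
      intro k s s' h1 h2 h3 h4 h5
      simp only [add_zero] at h3 h4
      rw [hF k s h1 h2, hF k s' h3 h4]
      have := hm k ⟨h1, h2⟩ ⟨h3, h4⟩ h5
      linarith
    | succ n ih =>
      intro k s s' h1 h2 h3 h4 h5
      have e1 : F s ≤ F (p (k + 1)) := by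
        rw [hF k s h1 h2, hF k _ (hp (Nat.lt_succ_self k)).le le_rfl]
        have := hm k ⟨h1, h2⟩ ⟨(hp (Nat.lt_succ_self k)).le, le_rfl⟩ h2
        linarith
      have h6 : k + (n + 1) = k + 1 + n := by omega
      rw [h6] at h3 h4
      have h7 : p (k + 1) ≤ p (k + 1 + n) := hp.monotone (by omega)
      exact e1.trans (ih (k + 1) _ s' le_rfl (hp (Nat.lt_succ_self _)).le h3 h4 (h7.trans h3))
  intro s hs s' hs' hss
  obtain ⟨k, hk1, hk2⟩ := exists_window hlim hs
  obtain ⟨k', hk1', hk2'⟩ := exists_window hlim hs'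
  have hkk : k ≤ k' := by
    by_contra h
    push Not at h
    have : p (k' + 1) ≤ p k := hp.monotone h
    linarith
  obtain ⟨n, rfl⟩ := Nat.exists_eq_add_of_le hkk
  exact key n k s s' hk1 hk2.le hk1' hk2'.le hss

/-- a function which is antitone on every window is antitone -/
theorem glue_anti {p : ℕ → ℝ} (hp : StrictMono p) (hlim : Tendsto p atTop atTop)
    {f : ℕ → ℝ → ℝ} {F : ℝ → ℝ} {c : ℕ → ℝ}
    (hF : ∀ k s, p k ≤ s → s ≤ p (k + 1) → F s = f k s - c k)
    (hm : ∀ k, AntitoneOn (f k) (Icc (p k) (p (k + 1)))) : AntitoneOn F (Ici (p 0)) := by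
  have h := glue_mono (F := fun s => -F s) (f := fun k s => -f k s) (c := fun k => -c k) hp hlim
    (fun k s h1 h2 => by rw [hF k s h1 h2]; ring)
    (fun k => fun x hx y hy hxy => neg_le_neg (hm k hx hy hxy))
  intro x hx y hy hxy
  exact neg_le_neg_iff.1 (h hx hy hxy)

end Vale.Agent.P214.ABS
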