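import Vale.Agent.P214.ABS.Near
import Mathlib.Analysis.Calculus.MeanValue
import Mathlib.Analysis.Calculus.Deriv.Inv
import Mathlib.Analysis.Calculus.Deriv.Pow
import Mathlib.Analysis.SpecialFunctions.Pow.Asymptotics
import Mathlib.Analysis.SpecialFunctions.Pow.Continuity

set_option linter.all false

/-! Block ABS (helper209): (I) of TXT-WIN-4, the lower bound `a ≥ (1 - Cκt) H - small`. -/

open Set Filter Topology

namespace Vale.Agent.P214.ABS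

noncomputable section

namespace Chain

/-- the differential inequality for `(H - a)/t²` -/
lemma ode_W {κ δ t H j a b H' a' : ℝ} (ht : 0 < t) (hκ : 0 ≤ κ * t) (hκ1 : κ * t ≤ 1)
    (o : Ode κ δ t H j a b H' a') :
    t * (H' - a') - 2 * (H - a) ≤ 7 * (κ * t) * (H + max (H - a) 0) + 2 * δ := by
  have h1 := (abs_le.1 o.dH).2
  have h2 := o.da
  have hb := o.bnn
  have hH := o.pos
  set x := √b with hx
  set y := √H with hy
  have hx0 : 0 ≤ x := Real.sqrt_nonneg _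
  have hy0 : 0 ≤ y := Real.sqrt_nonneg _
  have hx2 : x ^ 2 = b := Real.sq_sqrt hb
  have hy2 : y ^ 2 = H := Real.sq_sqrt hH.le
  have hr : √(b * H) = x * y := by rw [hx, hy, Real.sqrt_mul hb]
  have hj : |j| ≤ x * y := by
    rw [← hr]
    exact Real.abs_le_sqrt o.cs
  have hj1 : j ≤ x * y := (le_abs_self j).trans hj
  rw [hr] at h2
  set V := max (H - a) 0 with hV
  have hV0 : 0 ≤ V := le_max_right _ _
  have hV1 : H - a ≤ V := le_max_left _ _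
  have hm : max (j - a) 0 ≤ y * |x - y| + V := by
    apply max_le
    · have : x * y - y ^ 2 ≤ y * |x - y| := by
        have := le_abs_self (x - y)
        nlinarith
      rw [hy2] at this
      linarith
    · positivity
  have h3 : y * |x - y| ≤ (1 / 2) * y ^ 2 + (1 / 2) * (x - y) ^ 2 := by
    have := sq_abs (x - y)
    nlinarith [sq_nonneg (y - |x - y|)]
  have h4 : 2 * (x * y) ≤ 3 * y ^ 2 + (x - y) ^ 2 := by nlinarith [sq_nonneg (x - 2 * y)]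
  have h5 : κ * t * (H + |j| + x * y + max (j - a) 0)
      ≤ κ * t * (H + 2 * (x * y) + (y * |x - y| + V)) := by
    apply mul_le_mul_of_nonneg_left _ hκ
    linarith
  have h6 : κ * t * (H + 2 * (x * y) + (y * |x - y| + V))
      ≤ κ * t * ((9 / 2) * H + (3 / 2) * (x - y) ^ 2 + V) := by
    apply mul_le_mul_of_nonneg_left _ hκ
    rw [hy2] at h3 h4
    linarith
  have h7 : κ * t * ((3 / 2) * (x - y) ^ 2) ≤ (3 / 2) * (x - y) ^ 2 := by
    have : 0 ≤ (3 / 2) * (x - y) ^ 2 := by positivity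
    nlinarith
  have h8 : 4 * (x * y) - 2 * b - 2 * H = - (2 * (x - y) ^ 2) := by
    rw [← hx2, ← hy2]; ring
  have h9 : 0 ≤ (x - y) ^ 2 := sq_nonneg _
  nlinarith [mul_nonneg hκ hH.le, mul_nonneg hκ hV0]

/-- one window: barrier `D (x/t) + J + ζ` -/
lemma window {f f' : ℝ → ℝ} {x₀ x₁ t D J : ℝ} (ht : 0 < t) (hx₀ : 0 < x₀) (hx₁ : x₁ ≤ t)
    (hf : ∀ x, x₀ ≤ x → x ≤ x₁ → HasDerivAt f (f' x) x)
    (h0 : f x₀ ≤ D * (x₀ / t) + J)
    (hb : ∀ x, x₀ ≤ x → x ≤ x₁ → f x = D * (x / t) + J → x * f' x < D * (x / t)) :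
    ∀ x, x₀ ≤ x → x ≤ x₁ → f x ≤ D * (x / t) + J := by
  intro x hx hxx
  have hB : ∀ y : ℝ, HasDerivAt (fun x => D * (x / t) + J) (D * (1 / t)) y := fun y =>
    (((hasDerivAt_id y).div_const t).const_mul D).add_const J
  refine image_le_of_deriv_right_lt_deriv_boundary (f := f) (f' := f') (a := x₀) (b := x₁)
    (fun y hy => (hf y hy.1 hy.2).continuousAt.continuousWithinAt)
    (fun y hy => (hf y hy.1 hy.2.le).hasDerivWithinAt) h0 hB ?_ ⟨hx, hxx⟩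
  intro y hy hyB
  have hy0 : 0 < y := hx₀.trans_le hy.1
  have h1 := hb y hy.1 hy.2.le hyB
  have h2 : D * (y / t) = y * (D * (1 / t)) := by field_simp
  rw [h2] at h1
  exact lt_of_mul_lt_mul_left h1 hy0.le

/-- smallness of the parameters -/
lemma exists_small (A : ℕ) {c C₀ tA : ℝ} (hc : 0 < c) (hC₀ : 1 ≤ C₀) (htA : 0 < tA) :
    ∃ s₀ > 0, ∀ S : ℝ, 0 < S → S ≤ s₀ → 4 * C₀ * S ≤ tA ∧ 16 * Real.log (4 * C₀) ≤ Real.log S⁻¹ ∧
      2 ≤ Real.log S⁻¹ ∧ 10 * 2 ^ (A + 1) * (4 * C₀) ≤ Real.log S⁻¹ ∧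
      128 * (C₀ * S) ^ (1 + c) ≤ (Real.log S⁻¹)⁻¹ ^ A * S ∧ (C₀ * S) ^ c ≤ 1 / 2 ∧ C₀ * S ≤ 1 := by
  have hlog : Tendsto (fun S : ℝ => Real.log S⁻¹) (𝓝[>] 0) atTop :=
    Real.tendsto_log_atTop.comp tendsto_inv_nhdsGT_zero
  have hid : Tendsto (fun S : ℝ => S) (𝓝[>] 0) (𝓝 0) := tendsto_nhdsWithin_of_tendsto_nhds tendsto_id
  have h1 : ∀ᶠ S in 𝓝[>] (0:ℝ), 4 * C₀ * S < tA := by
    have : Tendsto (fun S : ℝ => 4 * C₀ * S) (𝓝[>] 0) (𝓝 (4 * C₀ * 0)) := hid.const_mul _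
    rw [mul_zero] at this
    exact this.eventually (gt_mem_nhds htA)
  have h7 : ∀ᶠ S in 𝓝[>] (0:ℝ), C₀ * S < 1 := by
    have : Tendsto (fun S : ℝ => C₀ * S) (𝓝[>] 0) (𝓝 (C₀ * 0)) := hid.const_mul _
    rw [mul_zero] at this
    exact this.eventually (gt_mem_nhds one_pos)
  have hpow : Tendsto (fun S : ℝ => (C₀ * S) ^ c) (𝓝[>] 0) (𝓝 0) := by
    have h : Tendsto (fun S : ℝ => C₀ * S) (𝓝[>] 0) (𝓝 0) := by
      simpa using hid.const_mul C₀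
    have h2 := Filter.Tendsto.rpow_const (p := c) h (Or.inr hc.le)
    rwa [Real.zero_rpow hc.ne'] at h2
  have h6 : ∀ᶠ S in 𝓝[>] (0:ℝ), (C₀ * S) ^ c < 1 / 2 :=
    hpow.eventually (gt_mem_nhds (by norm_num))
  -- `S^c (log 1/S)^A → 0`
  have h5 : ∀ᶠ S in 𝓝[>] (0:ℝ), Real.log S⁻¹ ^ A * (128 * C₀ ^ (1 + c)) ≤ S⁻¹ ^ c := by
    have h : (fun x : ℝ => Real.log x ^ A) =o[atTop] fun x => x ^ c :=
      (isLittleO_log_rpow_rpow_atTop (A:ℝ) hc).congr_left fun x => Real.rpow_natCast _ _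
    have hK : 0 < 128 * C₀ ^ (1 + c) := by positivity
    have h2 := h.bound (show 0 < (128 * C₀ ^ (1 + c))⁻¹ by positivity)
    have h3 := tendsto_inv_nhdsGT_zero.eventually h2
    filter_upwards [h3, self_mem_nhdsWithin] with S h4 hS
    have hS' : (0:ℝ) < S := hS
    rw [Real.norm_eq_abs, Real.norm_eq_abs, abs_of_nonneg (show 0 ≤ S⁻¹ ^ c by positivity)] at h4
    have h5 := (le_abs_self _).trans h4
    calc Real.log S⁻¹ ^ A * (128 * C₀ ^ (1 + c))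
        ≤ ((128 * C₀ ^ (1 + c))⁻¹ * S⁻¹ ^ c) * (128 * C₀ ^ (1 + c)) := by gcongr
      _ = S⁻¹ ^ c := by field_simp
  have hall := (((((h1.and (hlog.eventually_ge_atTop (16 * Real.log (4 * C₀)))).and
    (hlog.eventually_ge_atTop 2)).and (hlog.eventually_ge_atTop (10 * 2 ^ (A + 1) * (4 * C₀)))).and
    h5).and h6).and h7
  obtain ⟨s₀, hs₀, hsub⟩ := mem_nhdsGT_iff_exists_Ioc_subset.1 hall
  refine ⟨s₀, hs₀, fun S hS hSs => ?_⟩
  obtain ⟨⟨⟨⟨⟨⟨g1, g2⟩, g3⟩, g4⟩, g5⟩, g6⟩, g7⟩ := hsub ⟨hS, hSs⟩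
  refine ⟨g1.le, g2, g3, g4, ?_, g6.le, g7.le⟩
  have hl : 0 < Real.log S⁻¹ := by linarith
  have hSc : 0 < S ^ c := by positivity
  rw [Real.inv_rpow hS.le] at g5
  have e1 : (C₀ * S) ^ (1 + c) = C₀ ^ (1 + c) * (S * S ^ c) := by
    rw [Real.mul_rpow (by linarith) hS.le, Real.rpow_add hS, Real.rpow_one]
  rw [e1, inv_pow]
  have g8 : Real.log S⁻¹ ^ A * (128 * C₀ ^ (1 + c)) * S ^ c ≤ 1 := by
    calc Real.log S⁻¹ ^ A * (128 * C₀ ^ (1 + c)) * S ^ c ≤ (S ^ c)⁻¹ * S ^ c := by gcongr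
      _ = 1 := inv_mul_cancel₀ hSc.ne'
  have hlA : 0 < Real.log S⁻¹ ^ A := by positivity
  rw [inv_mul_eq_div, le_div_iff₀ hlA]
  calc 128 * (C₀ ^ (1 + c) * (S * S ^ c)) * Real.log S⁻¹ ^ A
      = (Real.log S⁻¹ ^ A * (128 * C₀ ^ (1 + c)) * S ^ c) * S := by ring
    _ ≤ 1 * S := by gcongr
    _ = S := one_mul _

/-- the error at every scale `x ≤ t` -/
lemma exists_ode (X : Chain) (hX : X.Good) {C₀ : ℝ} (hC₀ : 1 ≤ C₀)
    {A : ℕ} {tA : ℝ} (hode : ∀ k t S, X.Win k t → t ≤ tA → 0 < S → S ≤ tA → X.Bdd t S →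
      Ode X.κ (((Real.log S⁻¹)⁻¹) ^ A * S * t ^ 2) t (X.H k t) (X.j k t) (X.a k t) (X.b k t)
      (X.H' k t) (X.a' k t)) {t S : ℝ} (ht : 0 < t) (htA : t ≤ tA)
    (hS : 0 < S) (q1 : 4 * C₀ * S ≤ tA) (q2 : 16 * Real.log (4 * C₀) ≤ Real.log S⁻¹)
    (q3 : 2 ≤ Real.log S⁻¹) {i : ℕ} {x : ℝ} (hix : X.Win i x) (hxt : x ≤ t)
    (hB : X.Bdd x (C₀ * (x / t) * S)) :
    ∃ δ, Ode X.κ δ x (X.H i x) (X.j i x) (X.a i x) (X.b i x) (X.H' i x) (X.a' i x) ∧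
      δ ≤ (2 / Real.log S⁻¹) ^ A * (4 * C₀) * S * (x / t) * x ^ 2 := by
  set l := Real.log S⁻¹ with hl
  have hl0 : 0 < l := by linarith
  have hx : 0 < x := (hX.T_pos _).trans_le hix.1
  have hxt1 : x / t ≤ 1 := (div_le_one ht).2 hxt
  have hxt0 : 0 < x / t := by positivity
  have hC0 : 0 < C₀ := by linarith
  obtain ⟨Sx, hSx⟩ : ∃ Sx, Sx = C₀ * (x / t) * S := ⟨_, rfl⟩
  rw [← hSx] at hB
  have hSx0 : 0 < Sx := by rw [hSx]; positivity
  have hSxle : Sx ≤ 4 * C₀ * S := by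
    rw [hSx]
    calc C₀ * (x / t) * S ≤ C₀ * 1 * S := by gcongr
      _ = 1 * (C₀ * S) := by ring
      _ ≤ 4 * (C₀ * S) := by gcongr; norm_num
      _ = 4 * C₀ * S := by ring
  have hlx : 15 / 16 * l ≤ Real.log Sx⁻¹ := by
    have h1 : (4 * C₀ * S)⁻¹ ≤ Sx⁻¹ := inv_anti₀ hSx0 hSxle
    have h2 : Real.log (4 * C₀ * S)⁻¹ ≤ Real.log Sx⁻¹ := Real.log_le_log (by positivity) h1
    have h3 : Real.log (4 * C₀ * S)⁻¹ = l - Real.log (4 * C₀) := by
      rw [mul_inv, Real.log_mul (by positivity) (by positivity), Real.log_inv (4 * C₀)]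
      ring
    rw [h3] at h2
    linarith
  have hlx0 : 0 < Real.log Sx⁻¹ := by linarith
  have hinv : (Real.log Sx⁻¹)⁻¹ ≤ 16 / 15 * l⁻¹ := by
    calc (Real.log Sx⁻¹)⁻¹ ≤ (15 / 16 * l)⁻¹ := inv_anti₀ (by positivity) hlx
      _ = 16 / 15 * l⁻¹ := by rw [mul_inv]; norm_num
  refine ⟨_, hode i x Sx hix (hxt.trans htA) hSx0 (hSxle.trans q1) hB, ?_⟩
  have h1 : (Real.log Sx⁻¹)⁻¹ ^ A ≤ (2 / l) ^ A := by
    apply pow_le_pow_left₀ (by positivity)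
    refine hinv.trans ?_
    have h0 : 0 < l⁻¹ := by positivity
    have h0' : 2 / l = 2 * l⁻¹ := div_eq_mul_inv _ _
    rw [h0']
    linarith
  calc (Real.log Sx⁻¹)⁻¹ ^ A * Sx * x ^ 2 ≤ (2 / l) ^ A * Sx * x ^ 2 := by gcongr
    _ = 1 * ((2 / l) ^ A * C₀ * S * (x / t) * x ^ 2) := by rw [hSx]; ring
    _ ≤ 4 * ((2 / l) ^ A * C₀ * S * (x / t) * x ^ 2) := by gcongr; norm_num
    _ = (2 / l) ^ A * (4 * C₀) * S * (x / t) * x ^ 2 := by ring

/-- negative part of the normalised gap -/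
def f (X : Chain) (i : ℕ) (x : ℝ) : ℝ := (X.H i x - X.a i x) / x ^ 2

/-- its derivative -/
def f' (X : Chain) (i : ℕ) (x : ℝ) : ℝ :=
  (X.H' i x - X.a' i x) / x ^ 2 - 2 * (X.H i x - X.a i x) / x ^ 3

lemma hasDerivAt_f (X : Chain) (hX : X.Good) {i : ℕ} {x : ℝ} (hix : X.Win i x) :
    HasDerivAt (X.f i) (X.f' i x) x := by
  have hx : 0 < x := (hX.T_pos _).trans_le hix.1
  have h0 : HasDerivAt (fun x => X.H i x - X.a i x) (X.H' i x - X.a' i x) x :=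
    (hX.hasH i x hix).sub (hX.hasa i x hix)
  have h1 := h0.div (hasDerivAt_pow 2 x) (by positivity)
  refine h1.congr_deriv ?_
  simp only [f', Nat.cast_ofNat, Nat.add_one_sub_one, pow_one]
  field_simp

/-- pointwise inequality -/
lemma f'_le (X : Chain) (hX : X.Good) {i : ℕ} {z δ Y : ℝ} (hw : X.Win i z)
    (hκ : X.κ * z ≤ 1) (ho : Ode X.κ δ z (X.H i z) (X.j i z) (X.a i z) (X.b i z) (X.H' i z) (X.a' i z))
    (hδ : δ ≤ Y * z ^ 2) (hf0 : 0 ≤ X.f i z) :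
    z * X.f' i z ≤ 7 * (X.κ * z) * (X.h i z + X.f i z) + 2 * Y := by
  have hz0 : 0 < z := (hX.T_pos _).trans_le hw.1
  have hz2 : 0 < z ^ 2 := by positivity
  have hκ0 : 0 ≤ X.κ * z := mul_nonneg hX.κ_nn hz0.le
  have h1 := ode_W hz0 hκ0 hκ ho
  have e1 : z * X.f' i z = (z * (X.H' i z - X.a' i z) - 2 * (X.H i z - X.a i z)) / z ^ 2 := by
    simp only [f']
    field_simp
  have e2 : X.f i z * z ^ 2 = X.H i z - X.a i z := by
    simp only [f]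
    rw [div_mul_cancel₀ _ hz2.ne']
  have e3 : max (X.H i z - X.a i z) 0 = X.f i z * z ^ 2 := by
    rw [← e2]
    exact max_eq_left (mul_nonneg hf0 hz2.le)
  have e5 : X.H i z = X.h i z * z ^ 2 := by
    simp only [Chain.h]
    rw [div_mul_cancel₀ _ hz2.ne']
  rw [e1, div_le_iff₀ hz2]
  rw [e3] at h1
  calc z * (X.H' i z - X.a' i z) - 2 * (X.H i z - X.a i z)
      ≤ 7 * (X.κ * z) * (X.H i z + X.f i z * z ^ 2) + 2 * δ := h1
    _ ≤ 7 * (X.κ * z) * (X.H i z + X.f i z * z ^ 2) + 2 * (Y * z ^ 2) := by linarith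
    _ = 7 * (X.κ * z) * (X.h i z * z ^ 2 + X.f i z * z ^ 2) + 2 * (Y * z ^ 2) := by rw [e5]
    _ = _ := by ring

/-- jumps of `f` -/
lemma f_jump (X : Chain) (hX : X.Good) {i : ℕ} {g : ℝ} (hg : X.Jump i g) :
    X.f i (X.T (i + 1)) ≤ X.f (i + 1) (X.T (i + 1)) + 2 * g ^ (1 + X.c) := by
  have hT := hX.T_pos (i + 1)
  have hT2 : 0 < X.T (i + 1) ^ 2 := by positivity
  have e1 := (abs_le.1 hg.1).1
  have e2 := (abs_le.1 hg.2).2
  simp only [f]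
  calc (X.H i (X.T (i + 1)) - X.a i (X.T (i + 1))) / X.T (i + 1) ^ 2
      ≤ (X.H (i + 1) (X.T (i + 1)) - X.a (i + 1) (X.T (i + 1))
        + 2 * (X.T (i + 1) ^ 2 * g ^ (1 + X.c))) / X.T (i + 1) ^ 2 := by
        gcongr
        linarith
    _ = _ := by field_simp

/-- superexponential sequences -/
lemma seq_step {y y' c : ℝ} (hc : 0 < c) (hy : 0 < y) (hy' : 0 < y') (h1 : y' ≤ y ^ (1 + c))
    (h2 : y ^ c ≤ 1 / 2) : 4 * y' ^ (1 + c) + 2 * y ^ (1 + c) ≤ 4 * y ^ (1 + c) := by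
  have h3 : y ^ (1 + c) = y * y ^ c := by rw [Real.rpow_add hy, Real.rpow_one]
  have h4 : y' ≤ y * (1 / 2) := by
    rw [h3] at h1
    exact h1.trans (mul_le_mul_of_nonneg_left h2 hy.le)
  have h5 : y' ^ (1 + c) ≤ (y * (1 / 2)) ^ (1 + c) :=
    Real.rpow_le_rpow hy'.le h4 (by linarith)
  have h6 : (y * (1 / 2)) ^ (1 + c) ≤ y ^ (1 + c) * (1 / 2) := by
    rw [Real.mul_rpow hy.le (by norm_num)]
    apply mul_le_mul_of_nonneg_left _ (Real.rpow_nonneg hy.le _)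
    calc ((1:ℝ) / 2) ^ (1 + c) ≤ (1 / 2) ^ (1:ℝ) :=
          Real.rpow_le_rpow_of_exponent_ge (by norm_num) (by norm_num) (by linarith)
      _ = 1 / 2 := Real.rpow_one _
  linarith

/-- the induction over the windows -/
lemma induct (X : Chain) (hX : X.Good) {C₁ D Jm ζ Er t : ℝ} {J : ℕ → ℝ} {k N : ℕ} (hkt : X.Win k t)
    (hC₁ : 0 < C₁) (hD : 0 < D) (hζ : 0 < ζ) (hEr : 0 < Er) (hκt : X.κ * t ≤ 1)
    (hDkey : 7 * (X.κ * t) * (C₁ + D + Jm + ζ) + 2 * Er < D)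
    (herr : ∀ i x, X.Win i x → x ≤ t → ∃ δ,
      Ode X.κ δ x (X.H i x) (X.j i x) (X.a i x) (X.b i x) (X.H' i x) (X.a' i x) ∧
      δ ≤ Er * (x / t) * x ^ 2)
    (hnear : ∀ i x, X.Win i x → x ≤ t → X.h i x ≤ C₁)
    (hJ0 : ∀ i, 0 ≤ J i) (hJm : ∀ i, k ≤ i → J i ≤ Jm)
    (hjump : ∀ i, k ≤ i → ∃ g, X.Jump i g ∧ J (i + 1) + 2 * g ^ (1 + X.c) ≤ J i)
    (hdeep : ∀ x, X.Win N x → X.f N x ≤ ζ) :
    ∀ n i, k ≤ i → i + n = N → ∀ x, X.Win i x → x ≤ t →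
      X.f i x ≤ D * (x / t) + (J i + ζ) := by
  have ht : 0 < t := (hX.T_pos _).trans_le hkt.1
  have hTt : ∀ i, k ≤ i → X.T (i + 1) ≤ t := fun i hi =>
    (hX.T_anti.antitone (Nat.succ_le_succ hi)).trans hkt.1
  intro n
  induction n with
  | zero =>
    intro i hi hin x hx hxt
    have hiN : i = N := by omega
    subst hiN
    have hx0 : 0 < x := (hX.T_pos _).trans_le hx.1
    have h1 := hdeep x hx
    have h2 : 0 ≤ D * (x / t) := by positivity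
    have h3 := hJ0 i
    linarith
  | succ n ih =>
    intro i hi hin x hx hxt
    have hxb : 0 < X.T (i + 1) := hX.T_pos _
    refine window (x₀ := X.T (i + 1)) (x₁ := x) (f := X.f i) (f' := X.f' i) ht hxb hxt ?_ ?_ ?_
      x hx.1 le_rfl
    · intro z hz1 hz2
      exact hasDerivAt_f X hX ⟨hz1, hz2.trans hx.2⟩
    · have h1 := ih (i + 1) (by omega) (by omega) (X.T (i + 1))
        ⟨(hX.T_anti (Nat.lt_succ_self _)).le, le_rfl⟩ (hTt i hi)
      obtain ⟨g, hg1, hg2⟩ := hjump i hi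
      have h2 := f_jump X hX hg1
      linarith
    · intro z hz1 hz2 hz3
      have hz0 : 0 < z := hxb.trans_le hz1
      have hzt : z ≤ t := hz2.trans hxt
      have hw : X.Win i z := ⟨hz1, hz2.trans hx.2⟩
      obtain ⟨δ, ho, hδ⟩ := herr i z hw hzt
      have hκ := hX.κ_nn
      have hκz0 : 0 ≤ X.κ * z := by positivity
      have hκz : X.κ * z ≤ X.κ * t := by gcongr
      have hzt1 : z / t ≤ 1 := (div_le_one ht).2 hzt
      have hzt0 : 0 < z / t := by positivity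
      have hf0 : 0 ≤ X.f i z := by rw [hz3]; have := hJ0 i; positivity
      have h2 := f'_le X hX hw (hκz.trans hκt) ho hδ hf0
      have e3 : D * (z / t) ≤ D := by nlinarith
      have h3 : 7 * (X.κ * z) * (X.h i z + X.f i z)
          ≤ 7 * (X.κ * z) * (C₁ + D + Jm + ζ) := by
        apply mul_le_mul_of_nonneg_left _ (by positivity)
        rw [hz3]
        have e1 := hnear i z hw hzt
        have e2 := hJm i hi
        linarith
      have e4 : 7 * (X.κ * z) * (C₁ + D + Jm + ζ)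
          = (z / t) * (7 * (X.κ * t) * (C₁ + D + Jm + ζ)) := by
        field_simp
      have h4 := mul_lt_mul_of_pos_left hDkey hzt0
      calc z * X.f' i z ≤ 7 * (X.κ * z) * (X.h i z + X.f i z) + 2 * (Er * (z / t)) := h2
        _ ≤ (z / t) * (7 * (X.κ * t) * (C₁ + D + Jm + ζ)) + 2 * (Er * (z / t)) := by
            rw [← e4]; linarith
        _ = (z / t) * (7 * (X.κ * t) * (C₁ + D + Jm + ζ) + 2 * Er) := by ring
        _ < (z / t) * D := h4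
        _ = D * (z / t) := mul_comm _ _

/-- final algebra -/
lemma final_alg {κt C₀ η J ζ Er D W l S : ℝ} {A : ℕ} (hκ0 : 0 ≤ κt) (hκ : 14 * κt ≤ 1)
    (hl : 0 < l) (hS : 0 < S) (hJ0 : 0 ≤ J) (hJ : J ≤ l⁻¹ ^ A * S / 16)
    (hζ : ζ = l⁻¹ ^ A * S / 16) (hEr : Er = (2 / l) ^ (A + 1) * (4 * C₀) * S)
    (q4 : 10 * 2 ^ (A + 1) * (4 * C₀) ≤ l)
    (hD : D = 14 * κt * (C₀ * η + J + ζ) + 5 * Er) (hW : W ≤ D + (J + ζ)) :
    W ≤ 14 * C₀ * κt * η + l⁻¹ ^ A * S := by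
  have hlA : 0 < l ^ A := by positivity
  have e3 : 0 < l⁻¹ ^ A * S := by positivity
  have hEr2 : 5 * Er ≤ l⁻¹ ^ A * S / 2 := by
    rw [hEr, div_pow, pow_succ l A]
    have e1 : 5 * (2 ^ (A + 1) / (l ^ A * l) * (4 * C₀) * S)
        = (10 * 2 ^ (A + 1) * (4 * C₀)) / l * (l⁻¹ ^ A * S / 2) := by
      rw [inv_pow]
      field_simp
      ring
    rw [e1]
    have e2 : (10 * 2 ^ (A + 1) * (4 * C₀)) / l ≤ 1 := (div_le_one hl).2 q4
    nlinarith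
  have e1 : D = 14 * C₀ * κt * η + 14 * κt * (J + ζ) + 5 * Er := by
    rw [hD]; ring
  have e2 : 14 * κt * (J + ζ) ≤ 1 * (J + ζ) := by
    apply mul_le_mul_of_nonneg_right hκ
    rw [hζ]; positivity
  rw [e1] at hW
  linarith

/-- sizes of the switches below `t` -/
lemma jumps (X : Chain) (hX : X.Good) {k : ℕ} {t S : ℝ} (hkt : X.Win k t) (hS : 0 < S)
    (hB : X.Bdd t S) (hSc : S ^ X.c ≤ 1 / 2) :
    ∃ J : ℕ → ℝ, (∀ i, 0 ≤ J i) ∧ (∀ i, k ≤ i → J i ≤ 6 * S ^ (1 + X.c)) ∧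
      ∀ i, k ≤ i → ∃ g, X.Jump i g ∧ J (i + 1) + 2 * g ^ (1 + X.c) ≤ J i := by
  have hc := hX.c_pos
  have hTk : X.T (k + 1) ≤ t := hkt.1
  have hcol : ∀ l y, X.Near k l y → X.h l y ≤ S := by
    intro l y hy
    apply hB l y hy.1
    refine hy.2.2.trans ?_
    apply mul_le_mul_of_nonneg_right hTk
    have : 0 ≤ ((X.L l y)⁻¹) ^ 6 := by positivity
    linarith
  have hpos : ∀ l y, X.Win l y → 0 < X.h l y := fun l y hy =>
    div_pos (hX.H_pos l y hy) (by have := (hX.T_pos _).trans_le hy.1; positivity)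
  -- sizes
  have hsize : ∀ i, ∃ g, X.Jump i g ∧ 0 < g ∧ g ≤ X.e i ∧ (i = k → g ≤ S) := by
    intro i
    rcases hX.switch i with ⟨h1, h2⟩ | ⟨l, y, h1, h2, h3, -, -⟩
    · have hw : X.Win i (X.T (i + 1)) := ⟨le_rfl, (hX.T_anti (Nat.lt_succ_self i)).le⟩
      refine ⟨_, h1, hpos _ _ hw, h2, ?_⟩
      rintro rfl
      apply hB i _ hw
      have h4 : 0 ≤ ((X.L i (X.T (i + 1)))⁻¹) ^ 6 := by positivity
      have h5 : 0 < t := (hX.T_pos _).trans_le hkt.1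
      nlinarith
    · refine ⟨_, h2, hpos _ _ h1.1, h3, ?_⟩
      rintro rfl
      exact hcol l y h1
  have hek : X.e (k + 1) ≤ S := hX.e_le_of_bdd hTk hB
  have he : ∀ n, X.e (k + 1 + n) ≤ S ∧ X.e (k + 1 + n) ^ X.c ≤ 1 / 2 := by
    intro n
    induction n with
    | zero => exact ⟨hek, (Real.rpow_le_rpow (hX.e_pos _).le hek hc.le).trans hSc⟩
    | succ n ih =>
      have h1 := hX.growth (k + 1 + n)
      have h2 : X.e (k + 1 + n) ^ (1 + X.c) ≤ X.e (k + 1 + n) := by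
        rw [Real.rpow_add (hX.e_pos _), Real.rpow_one]
        have := (hX.e_pos (k + 1 + n)).le
        nlinarith [ih.2]
      have h3 : X.e (k + 1 + (n + 1)) ≤ S := (h1.trans h2).trans ih.1
      exact ⟨h3, (Real.rpow_le_rpow (hX.e_pos _).le h3 hc.le).trans hSc⟩
  have he' : ∀ i, k < i → X.e i ≤ S ∧ X.e i ^ X.c ≤ 1 / 2 := by
    intro i hi
    obtain ⟨n, rfl⟩ := Nat.exists_eq_add_of_le (Nat.succ_le_of_lt hi)
    exact he n
  have hSp : 0 < S ^ (1 + X.c) := by positivity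
  refine ⟨fun i => if i ≤ k then 6 * S ^ (1 + X.c) else 4 * X.e i ^ (1 + X.c), ?_, ?_, ?_⟩
  · intro i
    dsimp only
    split_ifs
    · positivity
    · have := (hX.e_pos i).le
      positivity
  · intro i hi
    dsimp only
    split_ifs with h
    · exact le_rfl
    · have h1 := Real.rpow_le_rpow (hX.e_pos i).le (he' i (by omega)).1
        (show 0 ≤ 1 + X.c by linarith)
      linarith
  · intro i hi
    obtain ⟨g, hg1, hg2, hg3, hg4⟩ := hsize i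
    refine ⟨g, hg1, ?_⟩
    dsimp only
    rcases hi.eq_or_lt with h | h
    · subst h
      rw [if_neg (by omega), if_pos le_rfl]
      have h1 := Real.rpow_le_rpow hg2.le (hg4 rfl) (show 0 ≤ 1 + X.c by linarith)
      have h2 := Real.rpow_le_rpow (hX.e_pos _).le hek (show 0 ≤ 1 + X.c by linarith)
      linarith
    · rw [if_neg (by omega), if_neg (by omega)]
      have h1 := Real.rpow_le_rpow hg2.le hg3 (show 0 ≤ 1 + X.c by linarith)
      have h2 := seq_step hc (hX.e_pos i) (hX.e_pos (i + 1)) (hX.growth i) (he' i h).2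
      linarith

/-- **(I) of TXT-WIN-4**, given the comparison of heights `near`. -/
theorem low_of_near (X : Chain) (hX : X.Good) {C₀ tn : ℝ} (hC₀ : 1 ≤ C₀) (htn : 0 < tn)
    (near : ∀ k t S, X.Win k t → t ≤ tn → 0 < S → S ≤ tn → X.Bdd t S →
      ∀ x, 0 < x → x ≤ t → X.Bdd x (C₀ * (x / t) * S)) :
    ∃ t₀ > 0, ∀ k t S, X.Win k t → t ≤ t₀ → 0 < S → S ≤ t₀ → X.Bdd t S →
      X.H k t - (14 * C₀ * X.κ * t + ((Real.log S⁻¹)⁻¹) ^ 2) * S * t ^ 2 ≤ X.a k t := by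
  obtain ⟨A, hA⟩ : ∃ A, A = 2 := ⟨_, rfl⟩
  obtain ⟨tA, htA, hode⟩ := hX.ode
  rw [show 3 = A + 1 by rw [hA]] at hode
  obtain ⟨s₀, hs₀, hsm⟩ := exists_small A hX.c_pos hC₀ htA
  have hκ := hX.κ_nn
  refine ⟨min (min tA tn) (min s₀ (14 * (X.κ + 1))⁻¹), by positivity, ?_⟩
  intro k t S hkt ht0 hS hS0 hBdd
  have htA' : t ≤ tA := ht0.trans ((min_le_left _ _).trans (min_le_left _ _))
  have htn' : t ≤ tn := ht0.trans ((min_le_left _ _).trans (min_le_right _ _))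
  have hSn' : S ≤ tn := hS0.trans ((min_le_left _ _).trans (min_le_right _ _))
  have htκ : t ≤ (14 * (X.κ + 1))⁻¹ := ht0.trans ((min_le_right _ _).trans (min_le_right _ _))
  have hSs : S ≤ s₀ := hS0.trans ((min_le_right _ _).trans (min_le_left _ _))
  obtain ⟨q1, q2, q3, q4, q5, q6, q7⟩ := hsm S hS hSs
  have ht : 0 < t := (hX.T_pos _).trans_le hkt.1
  have hκt : 14 * (X.κ * t) ≤ 1 := by
    have h1 : t * (14 * (X.κ + 1)) ≤ 1 := by
      rwa [← le_div_iff₀ (by positivity), one_div]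
    nlinarith
  have hκt0 : 0 ≤ X.κ * t := by positivity
  have hl0 : 0 < Real.log S⁻¹ := by linarith
  have hC0 : 0 < C₀ := by linarith
  have hc := hX.c_pos
  have hSC : S ≤ C₀ * S := by nlinarith
  have hbdd : ∀ x, 0 < x → x ≤ t → X.Bdd x (C₀ * (x / t) * S) :=
    near k t S hkt htn' hS hSn' hBdd
  have hnear : ∀ i x, X.Win i x → x ≤ t → X.h i x ≤ C₀ * S := by
    intro i x hx hxt
    have hx0 : 0 < x := (hX.T_pos _).trans_le hx.1
    have h2 : x / t ≤ 1 := (div_le_one ht).2 hxt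
    calc X.h i x ≤ C₀ * (x / t) * S := hbdd x hx0 hxt i x hx (by
          have : 0 ≤ ((X.L i x)⁻¹) ^ 6 := by positivity
          nlinarith)
      _ ≤ C₀ * 1 * S := by gcongr
      _ = C₀ * S := by ring
  obtain ⟨J, hJ0, hJm, hjump⟩ := jumps X hX hkt hS hBdd
    ((Real.rpow_le_rpow hS.le hSC hc.le).trans q6)
  obtain ⟨Jm, hJdef⟩ : ∃ Jm, Jm = 6 * S ^ (1 + X.c) := ⟨_, rfl⟩
  rw [← hJdef] at hJm
  have hJm0 : 0 ≤ Jm := by rw [hJdef]; positivity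
  have hJ1 : Jm ≤ (Real.log S⁻¹)⁻¹ ^ A * S / 16 := by
    have h1 := Real.rpow_le_rpow hS.le hSC (show 0 ≤ 1 + X.c by linarith)
    have h2 : 0 < S ^ (1 + X.c) := by positivity
    rw [hJdef]; linarith
  obtain ⟨Er, hEr⟩ : ∃ Er, Er = (2 / Real.log S⁻¹) ^ (A + 1) * (4 * C₀) * S := ⟨_, rfl⟩
  have hEr0 : 0 < Er := by rw [hEr]; positivity
  obtain ⟨ζ, hζ⟩ : ∃ ζ, ζ = (Real.log S⁻¹)⁻¹ ^ A * S / 16 := ⟨_, rfl⟩
  have hζ0 : 0 < ζ := by rw [hζ]; positivity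
  obtain ⟨D, hD⟩ : ∃ D, D = 14 * (X.κ * t) * (C₀ * S + Jm + ζ) + 5 * Er := ⟨_, rfl⟩
  have hD0 : 0 < D := by rw [hD]; positivity
  have hDkey : 7 * (X.κ * t) * (C₀ * S + D + Jm + ζ) + 2 * Er < D := by
    have h1 : 0 ≤ C₀ * S + Jm + ζ := by positivity
    have h2 : 7 * (X.κ * t) * D ≤ D / 2 := by nlinarith
    have h3 : 7 * (X.κ * t) * (C₀ * S + D + Jm + ζ)
        = 7 * (X.κ * t) * (C₀ * S + Jm + ζ) + 7 * (X.κ * t) * D := by ring
    linarith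
  obtain ⟨τ, hτ, hlim⟩ := hX.lim (ζ / 2) (by positivity)
  obtain ⟨N, hN⟩ := ((hX.T_lim.eventually (gt_mem_nhds hτ)).and (eventually_ge_atTop k)).exists
  have hdeep : ∀ x, X.Win N x → X.f N x ≤ ζ := by
    intro x hx
    have hx0 : 0 < x := (hX.T_pos _).trans_le hx.1
    obtain ⟨h1, h2⟩ := hlim N x hx (hx.2.trans hN.1.le)
    have h3 : -(X.a N x) ≤ ζ / 2 * x ^ 2 := (neg_le_abs _).trans h2
    have h4 : X.H N x ≤ ζ / 2 * x ^ 2 := by
      have : X.H N x / x ^ 2 ≤ ζ / 2 := h1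
      rwa [div_le_iff₀ (by positivity)] at this
    simp only [f]
    rw [div_le_iff₀ (by positivity)]
    linarith
  have hmain := induct X hX hkt (show 0 < C₀ * S by positivity) hD0 hζ0 hEr0 (by linarith) hDkey
    (fun i x hix hxt => by
      rw [hEr]
      exact exists_ode X hX hC₀ hode ht htA' hS q1 q2 q3 hix hxt
        (hbdd x ((hX.T_pos _).trans_le hix.1) hxt))
    hnear hJ0 hJm hjump hdeep (N - k) k le_rfl (Nat.add_sub_cancel' hN.2) t hkt le_rfl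
  rw [div_self ht.ne', mul_one] at hmain
  have hfin : X.f k t ≤ D + (Jm + ζ) := by
    have := hJm k le_rfl
    linarith
  have h1 := final_alg (A := A) hκt0 hκt hl0 hS hJm0 hJ1 hζ hEr q4 hD hfin
  have ht2 : 0 < t ^ 2 := by positivity
  simp only [f] at h1
  rw [div_le_iff₀ ht2] at h1
  have h2 : (14 * C₀ * (X.κ * t) * S + (Real.log S⁻¹)⁻¹ ^ A * S) * t ^ 2
      = (14 * C₀ * X.κ * t + ((Real.log S⁻¹)⁻¹) ^ A) * S * t ^ 2 := by ring
  have h3 : X.H k t - (14 * C₀ * X.κ * t + ((Real.log S⁻¹)⁻¹) ^ A) * S * t ^ 2 ≤ X.a k t := by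
    linarith
  rwa [hA] at h3

end Chain

end

end Vale.Agent.P214.ABS
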