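import Vale.Agent.P214.ABS.Boot

/-!
# P214, block ABS: the good starting point (TXT-WIN-4 (II)) as a maximum point, and the end
-/

open Set Filter Topology

namespace Vale.Agent.P214.ABS

noncomputable section

namespace Flow

variable {F : Flow} {C : ℝ}

/-- maximum point of a family of continuous functions on finitely many windows -/
theorem exists_max {g : ℕ → ℝ → ℝ} {a b : ℝ}
    (hg : ∀ k, ContinuousOn (g k) (Icc (F.p k) (F.p (k + 1)))) (n : ℕ)
    (hne : ∃ k < n, ∃ s, F.Win k s ∧ a ≤ s ∧ s ≤ b) :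
    ∃ k < n, ∃ s, F.Win k s ∧ a ≤ s ∧ s ≤ b ∧
      ∀ i < n, ∀ x, F.Win i x → a ≤ x → x ≤ b → g i x ≤ g k s := by
  induction n with
  | zero => obtain ⟨k, hk, -⟩ := hne; exact absurd hk (Nat.not_lt_zero _)
  | succ n ih =>
    set Z : Set ℝ := Icc (F.p n) (F.p (n + 1)) ∩ Icc a b with hZ
    have hZc : IsCompact Z := isCompact_Icc.inter isCompact_Icc
    have hgZ : ContinuousOn (g n) Z := (hg n).mono inter_subset_left
    by_cases hprev : ∃ k < n, ∃ s, F.Win k s ∧ a ≤ s ∧ s ≤ b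
    · obtain ⟨k, hk, s, hs1, hs2, hs3, hmax⟩ := ih hprev
      rcases Z.eq_empty_or_nonempty with hemp | hnem
      · refine ⟨k, by omega, s, hs1, hs2, hs3, ?_⟩
        intro i hi x hx hax hxb
        rcases Nat.lt_succ_iff_lt_or_eq.1 hi with h | h
        · exact hmax i h x hx hax hxb
        · subst h
          have : x ∈ Z := ⟨hx, hax, hxb⟩
          rw [hemp] at this
          exact absurd this (notMem_empty _)
      · obtain ⟨z, hz, hzmax⟩ := hZc.exists_isMaxOn hnem hgZ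
        rcases le_total (g k s) (g n z) with hle | hle
        · refine ⟨n, by omega, z, hz.1, hz.2.1, hz.2.2, ?_⟩
          intro i hi x hx hax hxb
          rcases Nat.lt_succ_iff_lt_or_eq.1 hi with h | h
          · exact (hmax i h x hx hax hxb).trans hle
          · subst h
            exact hzmax ⟨hx, hax, hxb⟩
        · refine ⟨k, by omega, s, hs1, hs2, hs3, ?_⟩
          intro i hi x hx hax hxb
          rcases Nat.lt_succ_iff_lt_or_eq.1 hi with h | h
          · exact hmax i h x hx hax hxb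
          · subst h
            exact (hzmax ⟨hx, hax, hxb⟩ : g i x ≤ g i z).trans hle
    · obtain ⟨k, hk, s, hs1, hs2, hs3⟩ := hne
      have hkn : k = n := by
        by_contra hcon
        exact hprev ⟨k, by omega, s, hs1, hs2, hs3⟩
      subst hkn
      have hnem : Z.Nonempty := ⟨s, hs1, hs2, hs3⟩
      obtain ⟨z, hz, hzmax⟩ := hZc.exists_isMaxOn hnem hgZ
      refine ⟨k, by omega, z, hz.1, hz.2.1, hz.2.2, ?_⟩
      intro i hi x hx hax hxb
      rcases Nat.lt_succ_iff_lt_or_eq.1 hi with h | h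
      · exact absurd ⟨i, h, x, hx, hax, hxb⟩ hprev
      · subst h
        exact hzmax ⟨hx, hax, hxb⟩

/-- derivative bound at a maximum point from the left -/
theorem deriv_le_of_max {f : ℝ → ℝ} {f' s r : ℝ} (hf : HasDerivAt f f' s) (hpos : 0 < f s)
    (hr : r < s)
    (hmax : ∀ x, r ≤ x → x ≤ s → 2 * (f x)⁻¹ + x ≤ 2 * (f s)⁻¹ + s) :
    f' ≤ f s ^ 2 / 2 := by
  have hd : HasDerivAt (fun x => 2 * (f x)⁻¹ + x) (2 * (-f' / f s ^ 2) + 1) s :=
    ((hf.fun_inv hpos.ne').const_mul 2).add (hasDerivAt_id s)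
  have hnn : 0 ≤ 2 * (-f' / f s ^ 2) + 1 := by
    have h1 := (hasDerivWithinAt_iff_tendsto_slope' (s := Iio s) (by simp)).1
      (hd.hasDerivWithinAt (s := Iio s))
    refine ge_of_tendsto h1 ?_
    have h2 : Ioo r s ∈ 𝓝[<] s := Ioo_mem_nhdsLT hr
    filter_upwards [h2] with x hx
    rw [slope_def_field]
    have h3 := hmax x hx.1.le hx.2.le
    have h4 : x - s < 0 := by linarith [hx.2]
    exact div_nonneg_of_nonpos (by linarith) h4.le
  have h5 : 0 < f s ^ 2 := by positivity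
  have h6 : 2 * (f' / f s ^ 2) ≤ 1 := by
    have : 2 * (-f' / f s ^ 2) = - (2 * (f' / f s ^ 2)) := by ring
    linarith
  have h7 : f' / f s ^ 2 ≤ 1 / 2 := by linarith
  rw [div_le_iff₀ h5] at h7
  linarith

/-- Riccati comparison at a maximum point -/
theorem ric_aux {ℓ L₁ : ℝ} (h9 : 9 ≤ ℓ) {x s₁ : ℝ}
    (hmax : 2 * ℓ⁻¹ + x ≤ 2 * L₁⁻¹ + s₁) (hc : s₁ - x ≤ 2 * (ℓ⁻¹) ^ 6) : L₁ ≤ ℓ + 1 := by
  by_contra hcon
  push Not at hcon
  have h0 : 0 < ℓ := by linarith
  have h1 : L₁⁻¹ ≤ (ℓ + 1)⁻¹ := inv_anti₀ (by linarith) hcon.le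
  have h2 : ℓ⁻¹ - (ℓ + 1)⁻¹ = ℓ⁻¹ * (ℓ + 1)⁻¹ := by field_simp; ring
  have h3 : (ℓ⁻¹) ^ 6 < ℓ⁻¹ * (ℓ + 1)⁻¹ := by
    have h4 : (2 * ℓ)⁻¹ ≤ (ℓ + 1)⁻¹ := inv_anti₀ (by linarith) (by linarith)
    have h5 : (2 * ℓ)⁻¹ = 1 / 2 * ℓ⁻¹ := by rw [mul_inv]; norm_num
    have h6 : ℓ⁻¹ ≤ 1 / 9 := by
      rw [inv_le_comm₀ h0 (by norm_num)]; norm_num; exact h9
    have h7 : 0 < ℓ⁻¹ := inv_pos.2 h0
    have h8 : (ℓ⁻¹) ^ 4 ≤ (1 / 9) ^ 4 := pow_le_pow_left₀ h7.le h6 4
    calc (ℓ⁻¹) ^ 6 = (ℓ⁻¹) ^ 4 * (ℓ⁻¹ * ℓ⁻¹) := by ring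
      _ ≤ (1 / 9) ^ 4 * (ℓ⁻¹ * ℓ⁻¹) := mul_le_mul_of_nonneg_right h8 (by positivity)
      _ < 1 / 2 * (ℓ⁻¹ * ℓ⁻¹) := mul_lt_mul_of_pos_right (by norm_num) (by positivity)
      _ = ℓ⁻¹ * (2 * ℓ)⁻¹ := by rw [h5]; ring
      _ ≤ ℓ⁻¹ * (ℓ + 1)⁻¹ := mul_le_mul_of_nonneg_left h4 h7.le
  linarith

/-- every depth beyond `p 0` lies in a window -/
theorem Good.exists_win (hF : F.Good C) {s : ℝ} (hs : F.p 0 ≤ s) : ∃ k, F.Win k s := by
  classical
  have hex : ∃ l, s ≤ F.p (l + 1) := by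
    obtain ⟨N, hN⟩ := (hF.p_lim.eventually_ge_atTop s).exists_forall_of_atTop
    exact ⟨N, hN _ (by omega)⟩
  refine ⟨Nat.find hex, ?_, Nat.find_spec hex⟩
  rcases Nat.eq_zero_or_pos (Nat.find hex) with h0 | h0
  · rw [h0]; exact hs
  · obtain ⟨n, hn⟩ := Nat.exists_eq_succ_of_ne_zero h0.ne'
    have := Nat.find_min hex (m := n) (by omega)
    push Not at this
    rw [hn]
    exact this.le

/-- **the end of the argument**: such a flow does not exist -/
theorem Good.false (hF : F.Good C) : False := by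
  obtain ⟨sd, hdeep⟩ := hF.deep
  obtain ⟨sf', hfact'⟩ := hF.fact
  obtain ⟨ss, hswitch⟩ := hF.switch
  set sf := max sf' ss with hsfdef
  have hfact : ∀ k s, F.Win k s → sf ≤ s → F.Up k s →
      ∃ N, Pt (C * (Real.exp (-s) + ((F.L k s)⁻¹) ^ 2)) (F.L' k s) (F.M' k s) (F.M k s) N :=
    fun k s hk hs hU => hfact' k s hk ((le_max_left _ _).trans hs) hU
  have hC := hF.C_nn
  -- constants
  set B : ℝ := 100 + 5 * C with hB
  obtain ⟨sL, hsL⟩ := hF.L_lim B
  obtain ⟨a, ha1, ha2⟩ : ∃ a : ℝ, max (max (F.p 0) (max sd sf)) sL + 2 ≤ a ∧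
      C * Real.exp (-a) ≤ 1 / 4 := by
    have h1 : Tendsto (fun a : ℝ => C * Real.exp (-a)) atTop (𝓝 (C * 0)) :=
      (Real.tendsto_exp_neg_atTop_nhds_zero).const_mul C
    rw [mul_zero] at h1
    have h2 := (h1.eventually (ge_mem_nhds (by norm_num : (0 : ℝ) < 1 / 4))).and
      (eventually_ge_atTop (max (max (F.p 0) (max sd sf)) sL + 2))
    obtain ⟨a, h3, h4⟩ := h2.exists
    exact ⟨a, h4, h3⟩
  have hp0 : F.p 0 + 2 ≤ a := by
    have := le_max_left (max (F.p 0) (max sd sf)) sL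
    have := le_max_left (F.p 0) (max sd sf)
    linarith
  have hsd : sd + 2 ≤ a := by
    have := le_max_left (max (F.p 0) (max sd sf)) sL
    have := le_max_right (F.p 0) (max sd sf)
    have := le_max_left sd sf
    linarith
  have hsf : sf + 2 ≤ a := by
    have := le_max_left (max (F.p 0) (max sd sf)) sL
    have := le_max_right (F.p 0) (max sd sf)
    have := le_max_right sd sf
    linarith
  have hsL' : sL + 2 ≤ a := by
    have := le_max_right (max (F.p 0) (max sd sf)) sL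
    linarith
  have hLB : ∀ k s, F.Win k s → a - 1 ≤ s → B ≤ F.L k s := fun k s hk hs =>
    hsL k s hk (by linarith)
  -- number of windows
  obtain ⟨n, hn⟩ : ∃ n, a + 1 < F.p n := by
    obtain ⟨N, hN⟩ := (hF.p_lim.eventually_gt_atTop (a + 1)).exists_forall_of_atTop
    exact ⟨N, hN N le_rfl⟩
  have hlt_n : ∀ i x, F.Win i x → x ≤ a + 1 → i < n := by
    intro i x hi hx
    by_contra hcon
    push Not at hcon
    have h1 : F.p n ≤ F.p i := hF.p_mono.monotone hcon
    have h2 := hi.1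
    linarith
  set g : ℕ → ℝ → ℝ := fun k s => 2 * (F.L k s)⁻¹ + s with hg
  have hgc : ∀ k, ContinuousOn (g k) (Icc (F.p k) (F.p (k + 1))) := by
    intro k s hs
    have h1 : ContinuousAt (F.L k) s := (hF.derL k s hs).continuousAt
    have h2 : F.L k s ≠ 0 := by have := hF.L_ge k s hs; positivity
    exact ((h1.inv₀ h2).const_mul 2 |>.add continuousAt_id).continuousWithinAt
  obtain ⟨kb, hkb⟩ := hF.exists_win (s := a + 1) (by linarith)
  obtain ⟨k₁, hk₁n, s₁, hw, hs1, hs2, hmax'⟩ := exists_max (F := F) (a := a - 1) (b := a + 1) hgc n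
    ⟨kb, hlt_n kb _ hkb le_rfl, a + 1, hkb, by linarith, le_rfl⟩
  have hmax : ∀ i x, F.Win i x → a - 1 ≤ x → x ≤ a + 1 → g i x ≤ g k₁ s₁ := fun i x hi h1 h2 =>
    hmax' i (hlt_n i x hi h2) x hi h1 h2
  have hB100 : 100 ≤ B := by rw [hB]; linarith
  have hs₁a : a < s₁ := by
    by_contra hcon
    push Not at hcon
    have h1 := hmax kb (a + 1) hkb (by linarith) le_rfl
    have h2 : 100 ≤ F.L k₁ s₁ := hB100.trans (hLB k₁ s₁ hw hs1)
    have h3 : (F.L k₁ s₁)⁻¹ ≤ 1 / 100 := by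
      rw [inv_le_comm₀ (by linarith) (by norm_num)]; norm_num; exact h2
    have h4 : 0 ≤ (F.L kb (a + 1))⁻¹ := by
      have := hF.L_ge kb _ hkb
      positivity
    simp only [hg] at h1
    linarith
  have hric : ∀ i x, F.Win i x → x ≤ s₁ → s₁ - x ≤ 2 * ((F.L i x)⁻¹) ^ 6 →
      F.L k₁ s₁ ≤ F.L i x + 1 := by
    intro i x hi hxs hc
    have h9 := hF.L_ge i x hi
    have h1 : (F.L i x)⁻¹ ≤ 1 := inv_le_one_of_one_le₀ (by linarith)
    have h0 : 0 ≤ (F.L i x)⁻¹ := by positivity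
    have h2 : ((F.L i x)⁻¹) ^ 6 ≤ 1 / 9 := by
      have h3 : (F.L i x)⁻¹ ≤ 1 / 9 := by
        rw [inv_le_comm₀ (by linarith) (by norm_num)]; norm_num; exact h9
      calc ((F.L i x)⁻¹) ^ 6 ≤ (1 / 9) ^ 6 := pow_le_pow_left₀ h0 h3 6
        _ ≤ 1 / 9 := by norm_num
    have h3 := hmax i x hi (by linarith) (by linarith)
    exact ric_aux h9 h3 hc
  have hUp₁ : F.Up k₁ s₁ := by
    intro i x hi hxs hc
    have := hric i x hi hxs hc
    linarith
  obtain ⟨N, hN⟩ := hfact k₁ s₁ hw (by linarith) hUp₁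
  have hL1 : B ≤ F.L k₁ s₁ := hLB k₁ s₁ hw (by linarith)
  -- bound of `M`
  have hder : ∃ k, F.Win k s₁ ∧ F.p k < s₁ ∧ F.L k s₁ = F.L k₁ s₁ ∧ F.M k s₁ = F.M k₁ s₁ := by
    rcases eq_or_lt_of_le hw.1 with heq | hlt
    · have hk0 : k₁ ≠ 0 := by
        intro h0
        rw [h0] at heq
        linarith
      obtain ⟨k, rfl⟩ := Nat.exists_eq_succ_of_ne_zero hk0
      have heq' : F.p (k + 1) = s₁ := heq
      rcases hswitch k (by rw [heq']; exact (le_max_right sf' ss).trans (by linarith)) with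
        ⟨h1, h2⟩ | ⟨l, x, hl, hxp, hc, h1, h2⟩
      · rw [heq'] at h1 h2
        exact ⟨k, ⟨by rw [← heq']; exact (hF.p_mono (Nat.lt_succ_self k)).le, heq'.symm.le⟩,
          by rw [← heq']; exact hF.p_mono (Nat.lt_succ_self k), h1.symm, h2.symm⟩
      · exfalso
        rw [heq'] at hxp hc h2
        have := hric l x hl hxp hc
        have h3 : F.L l x + 9 ≤ F.L (k + 1) s₁ := h2
        linarith
    · exact ⟨k₁, hw, hlt, rfl, rfl⟩
  have hMb : F.M k₁ s₁ ≤ (F.L k₁ s₁) ^ 2 := by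
    obtain ⟨k, hwk, hlt, hLk, hMk⟩ := hder
    have hUpk : F.Up k s₁ := by
      intro i x hi hxs hc
      have := hUp₁ i x hi hxs hc
      rw [hLk]; exact this
    obtain ⟨N', hN'⟩ := hfact k s₁ hwk (by linarith) hUpk
    have h1 : F.L' k s₁ ≤ F.L k s₁ ^ 2 / 2 := by
      refine deriv_le_of_max (r := max (F.p k) (a - 1)) (hF.derL k s₁ hwk)
        (by have := hF.L_ge k s₁ hwk; linarith) (max_lt hlt (by linarith)) ?_
      · intro x h1 h2
        have h3 := hmax k x ⟨(le_max_left _ _).trans h1, h2.trans hwk.2⟩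
          ((le_max_right _ _).trans h1) (by linarith)
        simp only [hg] at h3
        rw [hLk]
        exact h3
    have h2 := hN'.lo
    have h3 := hN'.MN
    rw [hMk] at h3
    rw [hLk] at h1
    nlinarith
  -- the start
  have hlam : 100 ≤ F.L k₁ s₁ - C := by rw [hB] at hL1; linarith
  have hstart : F.Start C k₁ s₁ :=
    { C_nn := hC
      p_mono := hF.p_mono
      derL := hF.derL
      derM := hF.derM
      L_ge := hF.L_ge
      switch := fun k hk => hswitch k ((le_max_right sf' ss).trans (by linarith))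
      win := hw
      deepS := fun i x hi hx => hdeep k₁ s₁ hw (by linarith) hUp₁ i x hi hx
      ric := hric
      Mb := hMb
      Mn := by have := hN.Mlo; linarith
      factS := fun k s hk hs hU => hfact k s hk (by linarith) hU
      big := by rw [hB] at hL1; linarith
      small := by
        have h1 : C * Real.exp (-s₁) ≤ 1 / 4 := by
          refine le_trans (mul_le_mul_of_nonneg_left ?_ hC) ha2
          exact Real.exp_le_exp.2 (by linarith)
        have h2 : C * (F.L k₁ s₁ - C)⁻¹ ≤ 1 / 4 := by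
          rw [← div_eq_mul_inv, div_le_iff₀ (by linarith)]
          rw [hB] at hL1
          linarith
        rw [mul_add]
        linarith }
  exact hstart.false hF.p_lim hF.decay

end Flow

end

end Vale.Agent.P214.ABS
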