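import Vale.Agent.P214.ABS.Conv
import Vale.Agent.P214.ABS.Max

/-!
# P214, block ABS: the end of the argument (TXT-WIN-4)
-/

namespace Vale.Agent.P214.ABS

/-- **The ending.** There is no good chain of exact references. -/
theorem Chain.Good.false (X : Chain) (hX : X.Good) : False := by
  obtain ⟨F, C, hF⟩ := hX.flow
  exact hF.false

end Vale.Agent.P214.ABS
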