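import Mathlib

set_option linter.all false

/-! Block ABS, (II) of TXT-WIN-4: good scale or blow-up (helper209).  Pure real analysis. -/

namespace Vale.Agent.P214.ABS

open Set

/-- **Outward steps.**  `L ≥ L₀ > 1` on `[a, b]`; if from every `t ∈ [a,b]` one can go outward to some
`s > t`, `log (s/t) ≤ 2/L(t)²`, at which either `s > b` or `L` has dropped by at least `1`, then
the logarithmic length of `[a, b]` is at most `2/(L₀-1)`. -/
theorem outward_bound {L : ℝ → ℝ} {L₀ a b : ℝ} (ha : 0 < a) (hL₀ : 1 < L₀)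
    (hlow : ∀ t, a ≤ t → t ≤ b → L₀ ≤ L t)
    (hstep : ∀ t, a ≤ t → t ≤ b → ∃ s, t ≤ s ∧ Real.log (s / t) ≤ 2 / L t ^ 2 ∧
      (s ≤ b → L s ≤ L t - 1)) (hab : a ≤ b) :
    Real.log (b / a) < 2 / (L₀ - 1) := by
  have key : ∀ k : ℕ, ∀ t, a ≤ t → t ≤ b → L t < L₀ + k →
      Real.log (b / t) ≤ 2 / (L₀ - 1) - 2 / L t := by
    intro k
    induction k with
    | zero =>
      intro t h1 h2 h3
      have := hlow t h1 h2
      simp only [Nat.cast_zero, add_zero] at h3
      linarith
    | succ k ih =>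
      intro t h1 h2 h3
      have hL := hlow t h1 h2
      have ht : 0 < t := ha.trans_le h1
      have hLt : 0 < L t := by linarith
      have hLt1 : 0 < L t - 1 := by linarith
      obtain ⟨s, hs1, hs2, hs3⟩ := hstep t h1 h2
      have hs : 0 < s := ht.trans_le hs1
      have h4 : 2 / L t ^ 2 ≤ 2 / (L t - 1) - 2 / L t := by
        rw [div_sub_div _ _ hLt1.ne' hLt.ne', div_le_div_iff₀ (by positivity) (by positivity)]
        nlinarith [sq_nonneg (L t)]
      have h5 : 2 / (L t - 1) ≤ 2 / (L₀ - 1) :=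
        div_le_div_of_nonneg_left (by norm_num) (by linarith) (by linarith)
      rcases le_or_gt s b with hsb | hsb
      · have h6 := hs3 hsb
        push_cast at h3
        have h7 := ih s (h1.trans hs1) hsb (by linarith)
        have h8 := hlow s (h1.trans hs1) hsb
        have h9 : Real.log (b / t) = Real.log (b / s) + Real.log (s / t) := by
          rw [← Real.log_mul (by have : 0 < b := hs.trans_le hsb; positivity) (by positivity)]
          congr 1
          field_simp
        have h10 : 2 / (L t - 1) ≤ 2 / L s :=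
          div_le_div_of_nonneg_left (by norm_num) (by linarith) (by linarith)
        linarith
      · have hb : 0 < b := ht.trans_le h2
        have h9 : Real.log (b / t) ≤ Real.log (s / t) := by
          apply Real.log_le_log (by positivity)
          gcongr
        linarith
  obtain ⟨k, hk⟩ := exists_nat_gt (L a - L₀)
  have h1 := key k a le_rfl hab (by linarith)
  have h2 : 0 < 2 / L a := by
    have := hlow a le_rfl hab
    have : 0 < L a := by linarith
    positivity
  linarith

/-- **Good scale or blow-up.**  `H t > 0` is the height of the active reference at the scale `t`,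
`X t d` the height at the scale `t (1 + 2 d)` of the reference active at `t` (one has
`X t d ≤ 2 H (t (1 + 2 d))`, the factor `2` is for the switches), `A t` the quantity `|a|`,
bounded by `C d⁻⁴ X t d`.  If `L = log (t²/H) ≥ L₀` then there is a good scale in every interval
`[a, b]` of logarithmic length `2/(L₀-1)`. -/
theorem exists_good {H A : ℝ → ℝ} {X : ℝ → ℝ → ℝ} {C L₀ a b : ℝ} (ha : 0 < a) (hC : 1 ≤ C)
    (hL₀ : 8 * C ≤ L₀) (hab : 2 / (L₀ - 1) ≤ Real.log (b / a)) (hab' : a ≤ b)
    (hH : ∀ t, a ≤ t → t ≤ b → 0 < H t)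
    (hlow : ∀ t, a ≤ t → t ≤ b → L₀ ≤ Real.log (t ^ 2 / H t))
    (hX : ∀ t d, a ≤ t → 0 < d → d ≤ 1 / 4 → t * (1 + 2 * d) ≤ b → X t d ≤ 2 * H (t * (1 + 2 * d)))
    (hA : ∀ t, a ≤ t → t ≤ b → ∀ d, (Real.log (t ^ 2 / H t))⁻¹ ^ 2 = d →
      A t ≤ C * d⁻¹ ^ 4 * X t d) :
    ∃ t, a ≤ t ∧ t ≤ b ∧ A t ≤ Real.log (t ^ 2 / H t) ^ 16 * H t ∧
      X t ((Real.log (t ^ 2 / H t))⁻¹ ^ 17) ≤ Real.log (t ^ 2 / H t) ^ 128 * H t := by
  by_contra hcon
  push Not at hcon
  have h1 : Real.log (b / a) < 2 / (L₀ - 1) := by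
    refine outward_bound (L := fun t => Real.log (t ^ 2 / H t)) ha (by linarith) hlow ?_ hab'
    intro t h1 h2
    have ht : 0 < t := ha.trans_le h1
    have hHt := hH t h1 h2
    set l := Real.log (t ^ 2 / H t) with hl
    have hl0 : 8 * C ≤ l := hL₀.trans (hlow t h1 h2)
    have hl8 : 8 ≤ l := by linarith
    have hlpos : 0 < l := by linarith
    -- it suffices to find `d ≤ l⁻²` with `l² H ≤ X t d`
    suffices h : ∃ d, 0 < d ∧ d ≤ l⁻¹ ^ 2 ∧ l ^ 2 * H t ≤ X t d by
      obtain ⟨d, hd, hd2, hd3⟩ := h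
      have hl2 : l⁻¹ ^ 2 ≤ 1 / 64 := by
        rw [inv_pow, inv_eq_one_div]
        exact one_div_le_one_div_of_le (by norm_num) (by nlinarith)
      refine ⟨t * (1 + 2 * d), by nlinarith, ?_, ?_⟩
      · rw [mul_div_assoc, mul_comm, div_mul_cancel₀ _ ht.ne']
        calc Real.log (1 + 2 * d) ≤ 2 * d := by
              have := Real.log_le_sub_one_of_pos (show 0 < 1 + 2 * d by positivity)
              linarith
          _ ≤ 2 * l⁻¹ ^ 2 := by linarith
          _ = 2 / l ^ 2 := by rw [inv_pow]; rfl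
      · intro hb
        set s := t * (1 + 2 * d) with hs
        have hs0 : 0 < s := by positivity
        have hHs := hH s (by rw [hs]; nlinarith) hb
        have h3 := hX t d h1 hd (by linarith) hb
        have h4 : l ^ 2 * H t / 2 ≤ H s := by linarith
        have h5 : s ^ 2 / H s ≤ (t ^ 2 / H t) * ((1 + 2 * d) ^ 2 * 2 / l ^ 2) := by
          rw [hs, mul_pow]
          calc t ^ 2 * (1 + 2 * d) ^ 2 / H s ≤ t ^ 2 * (1 + 2 * d) ^ 2 / (l ^ 2 * H t / 2) := by
                gcongr
            _ = _ := by field_simp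
        have h6 : (1 + 2 * d) ^ 2 * 2 / l ^ 2 ≤ Real.exp (-1) := by
          have h7 : (1 + 2 * d) ^ 2 * 2 ≤ 4 := by nlinarith
          have h8 : Real.exp (-1) = 1 / Real.exp 1 := by rw [Real.exp_neg]; simp
          rw [h8, div_le_div_iff₀ (by positivity) (Real.exp_pos 1)]
          have := Real.exp_one_lt_d9
          nlinarith [Real.exp_pos 1]
        calc Real.log (s ^ 2 / H s) ≤ Real.log ((t ^ 2 / H t) * Real.exp (-1)) := by
              apply Real.log_le_log (by positivity)
              exact h5.trans (by gcongr)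
          _ = l - 1 := by
              rw [Real.log_mul (by positivity) (Real.exp_pos _).ne', Real.log_exp, hl]
              ring
    by_cases hM : A t ≤ l ^ 16 * H t
    · refine ⟨l⁻¹ ^ 17, by positivity, ?_, ?_⟩
      · apply pow_le_pow_of_le_one (by positivity) (inv_le_one_of_one_le₀ (by linarith))
        norm_num
      · have := hcon t h1 h2 hM
        have h9 : l ^ 2 ≤ l ^ 128 := pow_le_pow_right₀ (by linarith) (by norm_num)
        nlinarith
    · push Not at hM
      refine ⟨l⁻¹ ^ 2, by positivity, le_rfl, ?_⟩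
      have h3 := hA t h1 h2 _ rfl
      have h4 : (l⁻¹ ^ 2)⁻¹ ^ 4 = l ^ 8 := by
        rw [← inv_pow, inv_inv, ← pow_mul]
      rw [h4] at h3
      have h5 : l ^ 16 * H t < C * l ^ 8 * X t (l⁻¹ ^ 2) := hM.trans_le h3
      have h6 : C ≤ l := by linarith
      have h7 : 0 < X t (l⁻¹ ^ 2) := by
        by_contra h
        push Not at h
        have : C * l ^ 8 * X t (l⁻¹ ^ 2) ≤ 0 := mul_nonpos_of_nonneg_of_nonpos (by positivity) h
        have h10 : 0 < l ^ 16 * H t := by positivity
        linarith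
      have h8 : l ^ 16 * H t < l ^ 9 * X t (l⁻¹ ^ 2) := by
        calc l ^ 16 * H t < C * l ^ 8 * X t (l⁻¹ ^ 2) := h5
          _ ≤ l * l ^ 8 * X t (l⁻¹ ^ 2) := by gcongr
          _ = _ := by ring
      have h9 : l ^ 7 * H t < X t (l⁻¹ ^ 2) := by
        have h10 : l ^ 9 * (l ^ 7 * H t) < l ^ 9 * X t (l⁻¹ ^ 2) := by
          calc l ^ 9 * (l ^ 7 * H t) = l ^ 16 * H t := by ring
            _ < _ := h8
        exact lt_of_mul_lt_mul_left h10 (by positivity)
      have h10 : l ^ 2 ≤ l ^ 7 := pow_le_pow_right₀ (by linarith) (by norm_num)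
      nlinarith
  linarith

end Vale.Agent.P214.ABS
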